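import Vale.Agent.P260.H811.Claim

namespace Vale.Agent.P260.H811

open Subgroup
open scoped commutatorElement
set_option linter.unusedSectionVars false
set_option linter.style.haveILetI false

variable {G : Type*} [Group G] {q : ℕ} [hq : Fact q.Prime]

/-- A finitely generated group has finitely many homomorphisms to a finite group. -/
theorem finite_hom (H B : Type*) [Group H] [hH : Group.FG H] [Group B] [Finite B] :
    Finite (H →* B) := by
  obtain ⟨S, hS⟩ := Group.fg_def.mp hH
  refine Finite.of_injective (fun (f : H →* B) (s : S) => f s) fun f g hfg => ?_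
  refine MonoidHom.eq_of_eqOn_dense (s := (S : Set H)) hS fun x hx => ?_
  exact congrFun hfg ⟨x, hx⟩

theorem card_hom_le {H A B : Type*} [Group H] [Group A] [Group B] (f : H →* A)
    (hf : Function.Surjective f) [Finite (H →* B)] : Nat.card (A →* B) ≤ Nat.card (H →* B) := by
  refine Nat.card_le_card_of_injective (fun g => g.comp f) fun g g' h => ?_
  exact (MonoidHom.cancel_right hf).mp h

theorem card_pow (E : Type*) [AddCommGroup E] [Finite E] [Module (ZMod q) E] :
    Nat.card E = Nat.card (ZMod q) ^ Module.finrank (ZMod q) E := by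
  exact Module.natCard_eq_pow_finrank

theorem card_elem0 (E : Type*) [AddCommGroup E] [Finite E] [Module (ZMod q) E] :
    Nat.card E = Nat.card (E →+ ZMod q) := by
  have h1 : Nat.card (E →+ ZMod q) = Nat.card (Module.Dual (ZMod q) E) :=
    Nat.card_congr (AddMonoidHom.toZModLinearMapEquiv q).toEquiv
  have h2 := Subspace.dual_finrank_eq (K := ZMod q) (V := E)
  have h3 : Finite (Module.Dual (ZMod q) E) := DFunLike.finite _
  rw [h1, card_pow (q := q) E, card_pow (q := q) (Module.Dual (ZMod q) E), h2]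

theorem card_elem (E : Type*) [AddCommGroup E] [Finite E] (h : ∀ x : E, q • x = 0)  :
    Nat.card E = Nat.card (E →+ ZMod q) := by
  let mE : Module (ZMod q) E := AddCommGroup.zmodModule h
  exact card_elem0 E

theorem card_elem' (E : Type*) [CommGroup E] [Finite E] (h : ∀ x : E, x ^ q = 1) :
    Nat.card E = Nat.card (E →* Multiplicative (ZMod q)) := by
  have h1 := card_elem (q := q) (Additive E) (fun x => h x.toMul)
  have h2 : Nat.card E = Nat.card (Additive E) := rfl
  rw [h2, h1]
  exact Nat.card_congr AddMonoidHom.toMultiplicativeRight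

theorem card_le (A : Type*) [CommGroup A] [Finite A] (h : ∀ a : A, a ^ q ^ 2 = 1) :
    Nat.card A ≤ (Nat.card (A →* Multiplicative (ZMod q))) ^ 2 := by
  have hfin : Finite (A →* Multiplicative (ZMod q)) := by
    have : Finite (Multiplicative (ZMod q)) := Finite.of_equiv (ZMod q) Multiplicative.ofAdd
    exact DFunLike.finite _
  let φ : A →* A := powMonoidHom q
  have h1 : Nat.card φ.ker * φ.ker.index = Nat.card A := card_mul_index _
  have h2 : φ.ker.index = Nat.card φ.range := Subgroup.index_ker φ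
  have h3 : Nat.card φ.range * φ.range.index = Nat.card A := card_mul_index _
  have h4 : 0 < Nat.card φ.range := Nat.card_pos
  have h5 : Nat.card φ.ker = φ.range.index := by
    rw [h2, mul_comm, ← h3] at h1
    exact Nat.eq_of_mul_eq_mul_left h4 h1
  have h6 : φ.range ≤ φ.ker := by
    rintro _ ⟨a, rfl⟩
    rw [MonoidHom.mem_ker]
    change (a ^ q) ^ q = 1
    rw [← pow_mul, ← pow_two]
    exact h a
  have h7 : Nat.card φ.range ≤ φ.range.index := by
    rw [← h5]
    exact Subgroup.card_le_of_le h6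
  have h8 : φ.range.index = Nat.card (A ⧸ φ.range) := rfl
  have h9 : Nat.card (A ⧸ φ.range) = Nat.card ((A ⧸ φ.range) →* Multiplicative (ZMod q)) := by
    refine card_elem' (A ⧸ φ.range) fun x => ?_
    induction x using QuotientGroup.induction_on with
    | H x =>
      rw [← QuotientGroup.mk_pow, QuotientGroup.eq_one_iff]
      exact ⟨x, rfl⟩
  have h10 : φ.range.index ≤ Nat.card (A →* Multiplicative (ZMod q)) := by
    rw [h8, h9]
    exact card_hom_le (QuotientGroup.mk' φ.range) (QuotientGroup.mk'_surjective _)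
  calc Nat.card A = Nat.card φ.range * φ.range.index := h3.symm
    _ ≤ φ.range.index * φ.range.index := Nat.mul_le_mul_right _ h7
    _ ≤ _ := by rw [pow_two]; exact Nat.mul_le_mul h10 h10

/-- The subgroup of elements centralising `N` modulo `F`. -/
def Kc (N F : Subgroup G) [F.Normal] : Subgroup G :=
  (centralizer (N.map (QuotientGroup.mk' F) : Set (G ⧸ F))).comap (QuotientGroup.mk' F)

theorem mem_Kc {N F : Subgroup G} [F.Normal] {g : G} : g ∈ Kc N F ↔ ∀ x ∈ N, ⁅x, g⁆ ∈ F := by
  rw [Kc, mem_comap, mem_centralizer_iff]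
  constructor
  · intro h x hx
    rw [comm_mem_iff]
    exact h _ (mem_map_of_mem _ hx)
  · rintro h _ ⟨x, hx, rfl⟩
    exact comm_mem_iff.mp (h x hx)

theorem Kc_eq_ker [Group.FG G] {r : ℕ} {N : Subgroup G} (hN : QN q N)
    (hr : Nat.card (N →* Multiplicative (ZMod q)) ≤ q ^ r) [(Fr q 2 N).Normal] :
    ∃ f : G →* Equiv.Perm (Fin (q ^ (2 * r))), f.ker = Kc N (Fr q 2 N) := by
  have hF := hN.Fr (k := 2)
  have hNi := hN.finiteIndex
  have hNn := hN.nor
  have hfin := hF.finite
  have hfinM : Finite (Multiplicative (ZMod q)) := Finite.of_equiv (ZMod q) Multiplicative.ofAdd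
  have hfg : Group.FG N := Subgroup.fg_of_index_ne_zero N
  have hfh := finite_hom N (Multiplicative (ZMod q))
  let Nb : Subgroup (G ⧸ Fr q 2 N) := N.map (QuotientGroup.mk' (Fr q 2 N))
  have hNb : Nb.Normal := Subgroup.Normal.map hNn _ (QuotientGroup.mk'_surjective _)
  letI : CommGroup Nb :=
    { (inferInstance : Group Nb) with
      mul_comm := by
        rintro ⟨_, a, ha, rfl⟩ ⟨_, b, hb, rfl⟩
        apply Subtype.ext
        exact comm_mem_iff.mp (comm_mem_Fr ha hb) }
  have hexp : ∀ a : Nb, a ^ q ^ 2 = 1 := by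
    rintro ⟨_, a, ha, rfl⟩
    apply Subtype.ext
    change (QuotientGroup.mk' (Fr q 2 N) a) ^ q ^ 2 = 1
    rw [← map_pow]
    exact (QuotientGroup.eq_one_iff _).mpr (pow_mem_Fr ha)
  let p : N →* Nb := (QuotientGroup.mk' (Fr q 2 N)).subgroupMap N
  have hp : Function.Surjective p := MonoidHom.subgroupMap_surjective _ _
  have hcard : Nat.card Nb ≤ q ^ (2 * r) := by
    refine (card_le Nb hexp).trans ?_
    rw [mul_comm, pow_mul]
    exact Nat.pow_le_pow_left ((card_hom_le p hp).trans hr) 2
  obtain ⟨ι⟩ : Nonempty (Nb ↪ Fin (q ^ (2 * r))) := by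
    have := Fintype.ofFinite Nb
    apply Function.Embedding.nonempty_of_card_le
    rw [Fintype.card_fin, ← Nat.card_eq_fintype_card]
    exact hcard
  let f : G →* Equiv.Perm (Fin (q ^ (2 * r))) :=
    (Equiv.Perm.viaEmbeddingHom ι).comp
      ((MulAut.toPerm Nb).comp ((MulAut.conjNormal (H := Nb)).comp (QuotientGroup.mk' (Fr q 2 N))))
  refine ⟨f, ?_⟩
  ext g
  rw [mem_Kc, MonoidHom.mem_ker]
  have hinj : f g = 1 ↔ MulAut.conjNormal (H := Nb) (QuotientGroup.mk' (Fr q 2 N) g) = 1 := by
    change Equiv.Perm.viaEmbeddingHom ι (MulAut.toPerm Nb (MulAut.conjNormal (H := Nb)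
      (QuotientGroup.mk' (Fr q 2 N) g))) = 1 ↔ _
    rw [map_eq_one_iff _ (Equiv.Perm.viaEmbeddingHom_injective ι)]
    constructor
    · intro h
      apply MulEquiv.ext
      intro x
      exact congrArg (fun e : Equiv.Perm Nb => e x) h
    · intro h
      rw [h]
      rfl
  rw [hinj]
  constructor
  · intro h x hx
    rw [comm_mem_iff]
    have h1 := congrArg (fun e => ((e ⟨_, mem_map_of_mem _ hx⟩ : Nb) : G ⧸ Fr q 2 N)) h
    simp only [MulAut.conjNormal_apply, MulAut.one_apply] at h1
    have h2 : (g : G ⧸ Fr q 2 N) * (x : G ⧸ Fr q 2 N) * (g : G ⧸ Fr q 2 N)⁻¹ = x := h1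
    have h3 : (g : G ⧸ Fr q 2 N) * (x : G ⧸ Fr q 2 N) = x * g := by
      calc (g : G ⧸ Fr q 2 N) * (x : G ⧸ Fr q 2 N)
          = (g : G ⧸ Fr q 2 N) * (x : G ⧸ Fr q 2 N) * (g : G ⧸ Fr q 2 N)⁻¹ * g := by group
        _ = x * g := by rw [h2]
    exact h3.symm
  · intro h
    ext x
    obtain ⟨_, x, hx, rfl⟩ := x
    rw [MulAut.conjNormal_apply]
    change (g : G ⧸ Fr q 2 N) * (x : G ⧸ Fr q 2 N) * (g : G ⧸ Fr q 2 N)⁻¹ = x
    have h3 : Commute (x : G ⧸ Fr q 2 N) (g : G ⧸ Fr q 2 N) := comm_mem_iff.mp (h x hx)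
    rw [← h3.eq]
    group

theorem QN.sInf {S : Set (Subgroup G)} (hS : S.Finite) (h : ∀ U ∈ S, QN q U) : QN q (sInf S) := by
  induction S, hS using Set.Finite.induction_on with
  | empty => rw [sInf_empty]; exact QN.top
  | insert _ _ ih =>
    rw [sInf_insert]
    exact (h _ (Set.mem_insert _ _)).inf (ih fun U hU => h U (Set.mem_insert_of_mem _ hU))

/-- Existence of `W`. -/
theorem exists_good [Group.FG G] {r : ℕ}
    (hr : ∀ N : Subgroup G, QN q N → Nat.card (N →* Multiplicative (ZMod q)) ≤ q ^ r) :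
    ∃ W : Subgroup G, QN q W ∧ Good q W := by
  have hfin : Finite (G →* Equiv.Perm (Fin (q ^ (2 * r)))) := finite_hom _ _
  let S : Set (Subgroup G) := {K | QN q K} ∩ Set.range fun f : G →* Equiv.Perm (Fin (q ^ (2 * r))) =>
    f.ker
  have hS : S.Finite := (Set.finite_range _).subset Set.inter_subset_right
  refine ⟨sInf S, QN.sInf hS fun U hU => hU.1, fun N hN x hx w hw => ?_⟩
  have hFn : (Fr q 2 N).Normal := Fr_normal hN.nor
  obtain ⟨f, hf⟩ := Kc_eq_ker hN (hr N hN)
  have hK : Kc N (Fr q 2 N) ∈ S := by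
    refine ⟨?_, f, hf⟩
    refine hN.mono (by rw [← hf]; infer_instance) fun g hg => ?_
    rw [mem_Kc]
    exact fun x hx => comm_mem_Fr hx hg
  exact mem_Kc.mp (mem_sInf.mp hw _ hK) x hx

end Vale.Agent.P260.H811
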