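import Vale.Agent.P260.H811.QN

namespace Vale.Agent.P260.H811

open Subgroup
open scoped commutatorElement
set_option linter.unusedSectionVars false
set_option linter.style.haveILetI false

variable {G : Type*} [Group G] {q : ℕ} [hq : Fact q.Prime]

/-- A nontrivial normal subgroup of a finite `q`-group meets the centre. -/
theorem exists_central {P : Type*} [Group P] [Finite P] (hP : IsPGroup q P) (N : Subgroup P)
    [N.Normal] (hN : N ≠ ⊥) : ∃ z ∈ N, z ≠ 1 ∧ ∀ g : P, g * z = z * g := by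
  have hN' : Nontrivial N := (Subgroup.nontrivial_iff_ne_bot N).mpr hN
  have hd : q ∣ Nat.card N := by
    obtain ⟨n, hn, hc⟩ := (IsPGroup.nontrivial_iff_card (hP.to_subgroup N)).mp hN'
    rw [hc]
    exact dvd_pow_self q hn.ne'
  have hfix : (1 : N) ∈ MulAction.fixedPoints (ConjAct P) N := by
    intro g
    exact smul_one g
  obtain ⟨b, hb, hb1⟩ := (hP.of_equiv
    ConjAct.toConjAct).exists_fixed_point_of_prime_dvd_card_of_fixed_point N hd hfix
  refine ⟨b, b.2, fun h => hb1 (Subtype.ext (by simpa using h.symm)), fun g => ?_⟩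
  have := congrArg Subtype.val (hb (ConjAct.toConjAct g))
  rw [ConjAct.Subgroup.val_conj_smul, ConjAct.toConjAct_smul] at this
  calc g * (b : P) = g * b * g⁻¹ * g := by group
    _ = b * g := by rw [this]

/-- For `U < N` normal, `U` of `q`-power index, there is a normal `M`, `U ≤ M < N`, with
`N = M ⟨z⟩`, `z` central modulo `M`. -/
theorem exists_chief {N U : Subgroup G} (hN : N.Normal) (hU : QN q U) (hUN : U < N) :
    ∃ M : Subgroup G, QN q M ∧ U ≤ M ∧ M < N ∧
      ∃ z ∈ N, (∀ g : G, ⁅z, g⁆ ∈ M) ∧ N ≤ M ⊔ zpowers z := by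
  classical
  let S : Set ℕ := {n | ∃ M : Subgroup G, M.Normal ∧ U ≤ M ∧ M < N ∧ M.index = n}
  have hS : S.Nonempty := ⟨U.index, U, hU.nor, le_rfl, hUN, rfl⟩
  obtain ⟨M, hMn, hUM, hMN, hMi⟩ := Nat.sInf_mem hS
  have hM : QN q M := hU.mono hMn hUM
  have hMf := hM.finiteIndex
  have hfin := hM.finite
  have hNbar : N.map (QuotientGroup.mk' M) ≠ ⊥ := by
    intro h
    apply hMN.not_ge
    intro x hx
    have : QuotientGroup.mk' M x ∈ N.map (QuotientGroup.mk' M) := Subgroup.mem_map_of_mem _ hx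
    rw [h, Subgroup.mem_bot] at this
    exact (QuotientGroup.eq_one_iff x).mp this
  have hnorm : (N.map (QuotientGroup.mk' M)).Normal :=
    Subgroup.Normal.map hN _ (QuotientGroup.mk'_surjective M)
  obtain ⟨zb, hzb, hzb1, hzbc⟩ := exists_central (hM.isPGroup) _ hNbar
  obtain ⟨z, hzN, rfl⟩ := hzb
  have hzM : z ∉ M := fun h => hzb1 ((QuotientGroup.eq_one_iff z).mpr h)
  have hzc : ∀ g : G, ⁅z, g⁆ ∈ M := by
    intro g
    rw [← QuotientGroup.eq_one_iff]
    have h1 := hzbc (QuotientGroup.mk' M g)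
    have h2 : ((⁅z, g⁆ : G) : G ⧸ M) =
        (QuotientGroup.mk' M z) * (QuotientGroup.mk' M g) * (QuotientGroup.mk' M z)⁻¹ *
          (QuotientGroup.mk' M g)⁻¹ := by
      rw [commutatorElement_def]; rfl
    rw [h2, ← h1]
    group
  refine ⟨M, hM, hUM, hMN, z, hzN, hzc, ?_⟩
  by_contra hcon
  have hM'n : (M ⊔ zpowers z).Normal := by
    have h1 : M ⊔ zpowers z = (zpowers (QuotientGroup.mk' M z)).comap (QuotientGroup.mk' M) := by
      rw [← MonoidHom.map_zpowers, QuotientGroup.comap_map_mk']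
    rw [h1]
    have h2 : (zpowers (QuotientGroup.mk' M z)).Normal := by
      constructor
      intro n hn g
      obtain ⟨k, rfl⟩ := mem_zpowers_iff.mp hn
      have hc : Commute g (QuotientGroup.mk' M z ^ k) := Commute.zpow_right (hzbc g) k
      rw [hc.eq, mul_inv_cancel_right]
      exact hn
    exact Subgroup.Normal.comap h2 _
  have hlt : M < M ⊔ zpowers z := by
    refine lt_of_le_of_ne le_sup_left fun h => hzM ?_
    rw [h]
    exact (le_sup_right : zpowers z ≤ M ⊔ zpowers z) (mem_zpowers z)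
  have hle : M ⊔ zpowers z ≤ N := sup_le hMN.le (by rwa [zpowers_le])
  have hlt' : M ⊔ zpowers z < N := lt_of_le_of_ne hle fun h => hcon h.ge
  have h3 : sInf S ≤ (M ⊔ zpowers z).index :=
    Nat.sInf_le ⟨_, hM'n, hUM.trans hlt.le, hlt', rfl⟩
  have h4 := Subgroup.index_strictAnti hlt
  omega

end Vale.Agent.P260.H811
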