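import Vale.Agent.P260.H811.Chief

namespace Vale.Agent.P260.H811

open Subgroup
open scoped commutatorElement
set_option linter.unusedSectionVars false
set_option linter.style.haveILetI false

variable {G : Type*} [Group G] {q : ℕ} [hq : Fact q.Prime]

/-- Commutators in a normal subgroup, through the quotient. -/
theorem comm_mem_iff {U : Subgroup G} [U.Normal] {x y : G} :
    ⁅x, y⁆ ∈ U ↔ Commute (x : G ⧸ U) (y : G ⧸ U) := by
  rw [← QuotientGroup.eq_one_iff, ← commutatorElement_eq_one_iff_commute]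
  rfl

/-- The subgroup generated by the `q^k`-th powers and the commutators of `N`. -/
def Fr (q k : ℕ) (N : Subgroup G) : Subgroup G :=
  Subgroup.closure ((fun x => x ^ q ^ k) '' (N : Set G)) ⊔ ⁅N, N⁆

theorem pow_mem_Fr {k : ℕ} {N : Subgroup G} {x : G} (hx : x ∈ N) : x ^ q ^ k ∈ Fr q k N :=
  (le_sup_left : _ ≤ Fr q k N) (Subgroup.subset_closure ⟨x, hx, rfl⟩)

theorem comm_mem_Fr {k : ℕ} {N : Subgroup G} {x y : G} (hx : x ∈ N) (hy : y ∈ N) :
    ⁅x, y⁆ ∈ Fr q k N :=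
  (le_sup_right : _ ≤ Fr q k N) (commutator_mem_commutator hx hy)

theorem Fr_le_iff {k : ℕ} {N U : Subgroup G} :
    Fr q k N ≤ U ↔ (∀ x ∈ N, x ^ q ^ k ∈ U) ∧ ∀ x ∈ N, ∀ y ∈ N, ⁅x, y⁆ ∈ U := by
  rw [Fr, sup_le_iff, Subgroup.closure_le, commutator_le, Set.image_subset_iff]
  rfl

theorem Fr_le {k : ℕ} {N : Subgroup G} : Fr q k N ≤ N :=
  Fr_le_iff.mpr ⟨fun _ hx => N.pow_mem hx _, fun _ hx _ hy => by
    rw [commutatorElement_def]
    exact N.mul_mem (N.mul_mem (N.mul_mem hx hy) (N.inv_mem hx)) (N.inv_mem hy)⟩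

theorem normal_closure_pow {N : Subgroup G} (hN : N.Normal) (k : ℕ) :
    (Subgroup.closure ((fun x => x ^ k) '' (N : Set G))).Normal := by
  constructor
  intro n hn g
  induction hn using Subgroup.closure_induction with
  | mem x hx =>
    obtain ⟨y, hy, rfl⟩ := hx
    exact Subgroup.subset_closure ⟨g * y * g⁻¹, hN.conj_mem y hy g, by simp⟩
  | one => simp
  | mul x y _ _ h1 h2 =>
    have : g * (x * y) * g⁻¹ = (g * x * g⁻¹) * (g * y * g⁻¹) := by group
    rw [this]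
    exact mul_mem h1 h2
  | inv x _ h1 =>
    have : g * x⁻¹ * g⁻¹ = (g * x * g⁻¹)⁻¹ := by group
    rw [this]
    exact inv_mem h1

theorem Fr_normal {k : ℕ} {N : Subgroup G} (hN : N.Normal) : (Fr q k N).Normal := by
  have := normal_closure_pow hN (q ^ k)
  unfold Fr
  infer_instance

theorem QN.Fr [Group.FG G] {k : ℕ} {N : Subgroup G} (hN : QN q N) : QN q (Fr q k N) :=
  hN.down (Fr_normal hN.nor) Fr_le (fun _ hx _ hy => comm_mem_Fr hx hy)
    (fun _ hx => pow_mem_Fr hx)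

/-- The key property of the subgroup `W`. -/
def Good (q : ℕ) (W : Subgroup G) : Prop :=
  ∀ N : Subgroup G, QN q N → ∀ x ∈ N, ∀ w ∈ W, ⁅x, w⁆ ∈ Fr q 2 N

theorem comm_of_sup {N M U : Subgroup G} [U.Normal] (hM : M.Normal) {z : G} (hMN : M ≤ N)
    (hz : z ∈ N) (hNz : N ≤ M ⊔ zpowers z) (hc : ∀ x ∈ M, ∀ w ∈ N, ⁅x, w⁆ ∈ U) :
    ∀ x ∈ N, ∀ y ∈ N, ⁅x, y⁆ ∈ U := by
  intro x hx y hy
  obtain ⟨m, hm, z1, hz1, rfl⟩ := mem_sup_of_normal_left.mp (hNz hx)
  obtain ⟨m', hm', z2, hz2, rfl⟩ := mem_sup_of_normal_left.mp (hNz hy)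
  obtain ⟨a, rfl⟩ := mem_zpowers_iff.mp hz1
  obtain ⟨b, rfl⟩ := mem_zpowers_iff.mp hz2
  rw [comm_mem_iff]
  have h1 : ∀ x ∈ M, ∀ w ∈ N, Commute (x : G ⧸ U) (w : G ⧸ U) := fun x hx w hw =>
    comm_mem_iff.mp (hc x hx w hw)
  rw [QuotientGroup.mk_mul, QuotientGroup.mk_mul, QuotientGroup.mk_zpow, QuotientGroup.mk_zpow]
  have c1 := h1 m hm m' (hMN hm')
  have c2 := h1 m hm z hz
  have c3 := h1 m' hm' z hz
  refine Commute.mul_left ?_ ?_
  · exact Commute.mul_right c1 (c2.zpow_right b)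
  · exact Commute.mul_right (c3.zpow_right a).symm
      (((Commute.refl (z : G ⧸ U)).zpow_left a).zpow_right b)

theorem claim {W : Subgroup G} (hW : Good q W) (n : ℕ) :
    ∀ N U : Subgroup G, QN q N → QN q U → U ≤ N → N ≤ W → (∀ x ∈ N, x ^ q ^ 2 ∈ U) →
      U.index - N.index = n → ∀ x ∈ N, ∀ w ∈ W, ⁅x, w⁆ ∈ U := by
  induction n using Nat.strong_induction_on with
  | _ n ih =>
    intro N U hN hU hUN hNW hp hn x hx w hw
    have hUn := hU.nor
    have hNn := hN.nor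
    rcases eq_or_lt_of_le hUN with h | hlt
    · rw [h, commutatorElement_def, mul_assoc, mul_assoc]
      refine N.mul_mem hx ?_
      rw [← mul_assoc]
      exact hNn.conj_mem _ (N.inv_mem hx) w
    · obtain ⟨M, hM, hUM, hMN, z, hz, hzc, hNz⟩ := exists_chief hN.nor hU hlt
      have hMf := hM.finiteIndex
      have hUf := hU.finiteIndex
      have h1 := Subgroup.index_strictAnti hMN
      have h2 : M.index ≤ U.index := Subgroup.index_antitone hUM
      have ihM := ih (U.index - M.index) (by omega) M U hM hU hUM (hMN.le.trans hNW)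
        (fun x hx => hp x (hMN.le hx)) rfl
      have hab : ∀ x ∈ N, ∀ y ∈ N, ⁅x, y⁆ ∈ U :=
        comm_of_sup hM.nor hMN.le hz hNz fun x hx w hw => ihM x hx w (hNW hw)
      exact (Fr_le_iff.mpr ⟨hp, hab⟩) (hW N hN x hx w hw)

/-- The lower series of `W`. -/
def L (q : ℕ) (W : Subgroup G) : ℕ → Subgroup G
  | 0 => W
  | i + 1 => Subgroup.closure ((fun x => x ^ q) '' (L q W i : Set G)) ⊔ ⁅L q W i, W⁆

section series

variable {W : Subgroup G}

theorem L_zero : L q W 0 = W := rfl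

theorem L_succ (i : ℕ) :
    L q W (i + 1) = Subgroup.closure ((fun x => x ^ q) '' (L q W i : Set G)) ⊔ ⁅L q W i, W⁆ := rfl

theorem pow_mem_L {i : ℕ} {x : G} (hx : x ∈ L q W i) : x ^ q ∈ L q W (i + 1) :=
  (le_sup_left : _ ≤ L q W (i + 1)) (Subgroup.subset_closure ⟨x, hx, rfl⟩)

theorem comm_mem_L {i : ℕ} {x w : G} (hx : x ∈ L q W i) (hw : w ∈ W) : ⁅x, w⁆ ∈ L q W (i + 1) :=
  (le_sup_right : _ ≤ L q W (i + 1)) (commutator_mem_commutator hx hw)

theorem L_normal (hW : W.Normal) (i : ℕ) : (L q W i).Normal := by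
  induction i with
  | zero => exact hW
  | succ i ih =>
    have := normal_closure_pow ih q
    rw [L_succ]
    infer_instance

theorem L_succ_le (hW : W.Normal) (i : ℕ) : L q W (i + 1) ≤ L q W i := by
  have hn := L_normal (q := q) hW i
  rw [L_succ, sup_le_iff, Subgroup.closure_le, Set.image_subset_iff]
  refine ⟨fun x hx => (L q W i).pow_mem hx q, ?_⟩
  exact commutator_le_left _ _

theorem L_anti (hW : W.Normal) {i j : ℕ} (h : i ≤ j) : L q W j ≤ L q W i := by
  induction h with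
  | refl => exact le_rfl
  | step _ ih => exact (L_succ_le hW _).trans ih

theorem L_le (hW : W.Normal) (i : ℕ) : L q W i ≤ W := L_anti hW (Nat.zero_le i)

theorem QN_L [Group.FG G] (hW : QN q W) (i : ℕ) : QN q (L q W i) := by
  induction i with
  | zero => exact hW
  | succ i ih =>
    refine ih.down (L_normal hW.nor _) (L_succ_le hW.nor i) (k := 1)
      (fun x hx y hy => comm_mem_L hx (L_le hW.nor i hy)) fun x hx => ?_
    rw [pow_one]
    exact pow_mem_L hx

theorem comm_L_two [Group.FG G] (hW : QN q W) (hG : Good q W) {i : ℕ} {x w : G}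
    (hx : x ∈ L q W i) (hw : w ∈ W) : ⁅x, w⁆ ∈ L q W (i + 2) := by
  refine claim hG _ (L q W i) (L q W (i + 2)) (QN_L hW i) (QN_L hW _)
    (L_anti hW.nor (by omega)) (L_le hW.nor i) (fun y hy => ?_) rfl x hx w hw
  rw [pow_two, pow_mul]
  exact pow_mem_L (pow_mem_L hy)

end series

end Vale.Agent.P260.H811
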