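import Mathlib

/-!
An ultrafilter limit of representations over `Z/q^n` is a representation over `Z_q`.
-/

namespace Vale.Agent.P260.H811

open Filter Topology
set_option linter.unusedSectionVars false

variable {q : ℕ} [hq : Fact q.Prime]

theorem norm_le_of_toZModPow_eq {n : ℕ} {x y : ℤ_[q]}
    (h : PadicInt.toZModPow n x = PadicInt.toZModPow n y) : ‖x - y‖ ≤ (q : ℝ) ^ (-n : ℤ) := by
  rw [PadicInt.norm_le_pow_iff_mem_span_pow, ← PadicInt.ker_toZModPow, RingHom.mem_ker, map_sub, h,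
    sub_self]

theorem exists_lift (n : ℕ) (c : ZMod (q ^ n)) : ∃ x : ℤ_[q], PadicInt.toZModPow n x = c := by
  have : NeZero (q ^ n) := ⟨pow_ne_zero _ hq.out.ne_zero⟩
  refine ⟨(c.val : ℤ_[q]), ?_⟩
  rw [map_natCast, ZMod.natCast_zmod_val]

theorem tendsto_pow_neg {d : ℕ → ℕ} (hd : Tendsto d atTop atTop) :
    Tendsto (fun n => (q : ℝ) ^ (-(d n) : ℤ)) atTop (𝓝 0) := by
  have h1 : Tendsto (fun n : ℕ => ((q : ℝ)⁻¹) ^ n) atTop (𝓝 0) := by
    apply tendsto_pow_atTop_nhds_zero_of_lt_one (by positivity)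
    exact inv_lt_one_of_one_lt₀ (by exact_mod_cast hq.out.one_lt)
  refine (h1.comp hd).congr fun n => ?_
  simp [zpow_neg]

/-- Two sequences which agree modulo `q^(d n)` have the same limits. -/
theorem limit_unique {ω : Filter ℕ} [ω.NeBot] (hω : ω ≤ atTop) {d : ℕ → ℕ}
    (hd : Tendsto d atTop atTop) {u v : ℕ → ℤ_[q]} {x y : ℤ_[q]} (hu : Tendsto u ω (𝓝 x))
    (hv : Tendsto v ω (𝓝 y))
    (h : ∀ n, PadicInt.toZModPow (d n) (u n) = PadicInt.toZModPow (d n) (v n)) : x = y := by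
  have h1 : Tendsto (fun n => u n - v n) ω (𝓝 0) := by
    rw [tendsto_zero_iff_norm_tendsto_zero]
    refine squeeze_zero (fun n => norm_nonneg _) (fun n => norm_le_of_toZModPow_eq (h n)) ?_
    exact (tendsto_pow_neg hd).mono_left hω
  exact sub_eq_zero.1 (tendsto_nhds_unique (hu.sub hv) h1)

/-- Limit of representations. -/
theorem exists_limit {G : Type*} [Group G] {m : ℕ} (d : ℕ → ℕ) (hd : Tendsto d atTop atTop)
    (C : ∀ n : ℕ, G →* Matrix (Fin m) (Fin m) (ZMod (q ^ d n))) :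
    ∃ ρ : G →* Matrix (Fin m) (Fin m) ℤ_[q], ∀ g : G, ρ g = 1 → ∀ k N : ℕ, ∃ n ≥ N,
      ∃ D : Matrix (Fin m) (Fin m) (ZMod (q ^ d n)), C n g = 1 + (q ^ k : ZMod (q ^ d n)) • D := by
  classical
  choose lift hlift using fun n => exists_lift (q := q) (d n)
  let f : ℕ → G → Fin m → Fin m → ℤ_[q] := fun n g a b => lift n (C n g a b)
  have hf : ∀ n g a b, PadicInt.toZModPow (d n) (f n g a b) = C n g a b := fun n g a b =>
    hlift n _
  let ω : Ultrafilter ℕ := hyperfilter ℕ
  have hω : (ω : Filter ℕ) ≤ atTop := by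
    rw [← Nat.cofinite_eq_atTop]
    exact hyperfilter_le_cofinite
  have hlim : ∀ g a b, ∃ x : ℤ_[q], Tendsto (fun n => f n g a b) ω (𝓝 x) := by
    intro g a b
    exact ⟨_, (ω.map fun n => f n g a b).le_nhds_lim⟩
  choose r hr using hlim
  have hone : ∀ a b, r 1 a b = (1 : Matrix (Fin m) (Fin m) ℤ_[q]) a b := by
    intro a b
    refine limit_unique hω hd (hr 1 a b) tendsto_const_nhds fun n => ?_
    rw [hf, map_one, Matrix.one_apply, Matrix.one_apply]
    split_ifs <;> simp
  have hmul : ∀ g h a b, r (g * h) a b = ∑ c, r g a c * r h c b := by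
    intro g h a b
    refine limit_unique hω hd (hr (g * h) a b)
      (tendsto_finsetSum _ fun c _ => (hr g a c).mul (hr h c b)) fun n => ?_
    rw [hf, map_mul, Matrix.mul_apply, map_sum]
    refine Finset.sum_congr rfl fun c _ => ?_
    rw [map_mul, hf, hf]
  refine ⟨{ toFun := fun g => Matrix.of (r g)
            map_one' := by ext a b; exact hone a b
            map_mul' := fun g h => by
              ext a b
              rw [Matrix.mul_apply]
              exact hmul g h a b }, ?_⟩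
  intro g hg k N
  have hg' : ∀ a b, r g a b = (1 : Matrix (Fin m) (Fin m) ℤ_[q]) a b := fun a b => by
    have := congrFun (congrFun hg a) b
    exact this
  have hev : ∀ a b, ∀ᶠ n in (ω : Filter ℕ),
      ‖f n g a b - (1 : Matrix (Fin m) (Fin m) ℤ_[q]) a b‖ < (q : ℝ) ^ (-k : ℤ) := by
    intro a b
    have h1 : Tendsto (fun n => ‖f n g a b - (1 : Matrix (Fin m) (Fin m) ℤ_[q]) a b‖) ω (𝓝 0) := by
      rw [← tendsto_zero_iff_norm_tendsto_zero]
      have := (hr g a b).sub_const ((1 : Matrix (Fin m) (Fin m) ℤ_[q]) a b)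
      rwa [hg' a b, sub_self] at this
    refine h1.eventually (gt_mem_nhds ?_)
    have : (0 : ℝ) < q := by exact_mod_cast hq.out.pos
    positivity
  have hev' : ∀ᶠ n in (ω : Filter ℕ), (∀ a b,
      ‖f n g a b - (1 : Matrix (Fin m) (Fin m) ℤ_[q]) a b‖ < (q : ℝ) ^ (-k : ℤ)) ∧ N ≤ n := by
    refine Filter.Eventually.and ?_ (hω (eventually_ge_atTop N))
    rw [eventually_all]
    intro a
    rw [eventually_all]
    exact hev a
  obtain ⟨n, hn, hnN⟩ := hev'.exists
  refine ⟨n, hnN, ?_⟩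
  have hD : ∀ a b, ∃ t : ℤ_[q],
      f n g a b - (1 : Matrix (Fin m) (Fin m) ℤ_[q]) a b = (q : ℤ_[q]) ^ k * t := by
    intro a b
    have := (PadicInt.norm_le_pow_iff_mem_span_pow _ k).1 (hn a b).le
    exact Ideal.mem_span_singleton.1 this
  choose t ht using hD
  refine ⟨Matrix.of fun a b => PadicInt.toZModPow (d n) (t a b), ?_⟩
  ext a b
  have h1 := congrArg (PadicInt.toZModPow (d n)) (ht a b)
  rw [map_sub, hf, map_mul, map_pow, map_natCast, sub_eq_iff_eq_add] at h1
  rw [h1, Matrix.add_apply, Matrix.smul_apply, Matrix.of_apply, smul_eq_mul, add_comm]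
  congr 1
  rw [Matrix.one_apply, Matrix.one_apply]
  split_ifs <;> simp

end Vale.Agent.P260.H811
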