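import Mathlib

/-!
The matrices of automorphisms of a homocyclic group.
-/

namespace Vale.Agent.P260.H811

variable {G B : Type*} [Group G] [CommGroup B] {m n : ℕ}

/-- The endomorphism of `(Z/n)^m` of an automorphism of `B`. -/
noncomputable def endo (e : Additive B ≃+ (Fin m → ZMod n)) (φ : MulAut B) :
    (Fin m → ZMod n) →ₗ[ZMod n] (Fin m → ZMod n) :=
  AddMonoidHom.toZModLinearMap n
    (e.toAddMonoidHom.comp ((MonoidHom.toAdditive φ.toMonoidHom).comp e.symm.toAddMonoidHom))

theorem endo_apply (e : Additive B ≃+ (Fin m → ZMod n)) (φ : MulAut B) (v : Fin m → ZMod n) :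
    endo e φ v = e (Additive.ofMul (φ (e.symm v).toMul)) := rfl

theorem exists_matrix (θ : G →* MulAut B) (e : Additive B ≃+ (Fin m → ZMod n)) :
    ∃ C : G →* Matrix (Fin m) (Fin m) (ZMod n), ∀ (g : G) (c : ZMod n)
      (D : Matrix (Fin m) (Fin m) (ZMod n)) (k : ℕ), (k : ZMod n) = c → C g = 1 + c • D →
      ∀ b : B, ∃ b' : B, θ g b = b * b' ^ k := by
  refine ⟨{ toFun := fun g => LinearMap.toMatrix' (endo e (θ g))
            map_one' := ?_
            map_mul' := fun g h => ?_ }, ?_⟩
  · rw [← LinearMap.toMatrix'_id]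
    congr 1
    ext1 i
    ext1
    rw [LinearMap.comp_apply, LinearMap.comp_apply, endo_apply]
    simp
  · rw [← LinearMap.toMatrix'_comp]
    congr 1
    apply LinearMap.ext
    intro v
    rw [LinearMap.comp_apply, endo_apply, endo_apply, endo_apply]
    simp
  · intro g c D k hk hC b
    have h1 : ∀ v, endo e (θ g) v = v + (k : ZMod n) • D.mulVec v := by
      intro v
      have h2 : LinearMap.toMatrix' (endo e (θ g)) = 1 + c • D := hC
      have h3 := congrArg (fun M => Matrix.mulVec M v) h2
      simp only [LinearMap.toMatrix'_mulVec] at h3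
      rw [h3, Matrix.add_mulVec, Matrix.one_mulVec, Matrix.smul_mulVec, hk]
    have h4 := h1 (e (Additive.ofMul b))
    rw [endo_apply, AddEquiv.symm_apply_apply, toMul_ofMul] at h4
    refine ⟨(e.symm (D.mulVec (e (Additive.ofMul b)))).toMul, ?_⟩
    have h5 : Additive.ofMul (θ g b) = Additive.ofMul b +
        k • e.symm (D.mulVec (e (Additive.ofMul b))) := by
      apply e.injective
      rw [h4, map_add, map_nsmul, AddEquiv.apply_symm_apply, Nat.cast_smul_eq_nsmul]
    exact h5

end Vale.Agent.P260.H811
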