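import Vale.Agent.P260.H811.Hom
import Vale.Agent.P260.H811.Mat
import Vale.Agent.P260.H811.Limit

/-!
Uniform filtrations `K 0 ≥ K 1 ≥ …` of normal subgroups of a group `G` and the representation of
`G` over `ℚ_q` obtained from the conjugation on `K j / K (2 j)`.
-/

namespace Vale.Agent.P260.H811

open Subgroup Filter
open scoped commutatorElement
set_option linter.unusedSectionVars false
set_option linter.style.haveILetI false

/-- A filtration of normal subgroups, uniform from `s` on. -/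
structure Fil (q m s : ℕ) {G : Type*} [Group G] (K : ℕ → Subgroup G) : Prop where
  nor : ∀ i, (K i).Normal
  fin : ∀ i, (K i).FiniteIndex
  anti : ∀ {i j : ℕ}, i ≤ j → K j ≤ K i
  comm : ∀ {i : ℕ} {x w : G}, x ∈ K i → w ∈ K 0 → ⁅x, w⁆ ∈ K (i + 2)
  comm2 : ∀ {i : ℕ} {x y : G}, x ∈ K i → y ∈ K i → ⁅x, y⁆ ∈ K (2 * i)
  pow : ∀ {i : ℕ} {x : G}, x ∈ K i → x ^ q ∈ K (i + 1)
  rel : ∀ {i : ℕ}, s ≤ i → (K (i + 1)).relIndex (K i) = q ^ m
  range : ∀ {i : ℕ} {x : G}, x ∈ K (i + 1) → ∃ y ∈ K i, (y ^ q)⁻¹ * x ∈ K (2 * i)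
  inj : ∀ {i : ℕ} {x : G}, s ≤ i → x ∈ K i → x ^ q ∈ K (i + 2) → x ∈ K (i + 1)
  sep : ∀ x ∈ K 0, x ≠ 1 → ∃ c, x ∉ K c

variable {G : Type*} [Group G] {q : ℕ} [hq : Fact q.Prime] {m s : ℕ} {K : ℕ → Subgroup G}

theorem comm_iff {U : Subgroup G} [U.Normal] {x y : G} :
    ⁅x, y⁆ ∈ U ↔ Commute (x : G ⧸ U) (y : G ⧸ U) := by
  rw [← QuotientGroup.eq_one_iff, ← commutatorElement_eq_one_iff_commute]
  rfl

theorem Fil.pow_pow (hK : Fil q m s K) {i : ℕ} {x : G} (hx : x ∈ K i) (k : ℕ) :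
    x ^ q ^ k ∈ K (i + k) := by
  induction k with
  | zero => simpa using hx
  | succ k ih =>
    rw [pow_succ, pow_mul, ← add_assoc]
    exact hK.pow ih

theorem Fil.rel_add (hK : Fil q m s K) {i : ℕ} (hi : s ≤ i) (t : ℕ) :
    (K (i + t)).relIndex (K i) = q ^ (m * t) := by
  induction t with
  | zero => simp
  | succ t ih =>
    have h1 := Subgroup.relIndex_mul_relIndex (K (i + t + 1)) (K (i + t)) (K i)
      (hK.anti (by omega)) (hK.anti (by omega))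
    rw [ih, hK.rel (by omega : s ≤ i + t), ← pow_add] at h1
    rw [← add_assoc, ← h1]
    congr 1
    ring

theorem Fil.exists_level (hK : Fil q m s K) {j : ℕ} (hj : s ≤ j) (hj0 : 1 ≤ j) :
    ∃ C : G →* Matrix (Fin m) (Fin m) (ZMod (q ^ j)), ∀ (g : G) (k : ℕ)
      (D : Matrix (Fin m) (Fin m) (ZMod (q ^ j))), k ≤ j →
      C g = 1 + (q ^ k : ZMod (q ^ j)) • D → ∀ x ∈ K j, ⁅g, x⁆ ∈ K (j + k) := by
  have hnj : (K j).Normal := hK.nor _
  have hn : (K (2 * j)).Normal := hK.nor _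
  have hfi : (K (2 * j)).FiniteIndex := hK.fin _
  let π : G →* G ⧸ K (2 * j) := QuotientGroup.mk' _
  let A : Subgroup (G ⧸ K (2 * j)) := (K j).map π
  have hA : A.Normal := hnj.map π (QuotientGroup.mk'_surjective _)
  have hc : ∀ a b : A, a * b = b * a := by
    rintro ⟨_, x, hx, rfl⟩ ⟨_, y, hy, rfl⟩
    exact Subtype.ext (comm_iff.1 (hK.comm2 hx hy))
  let mA : CommGroup A := { (inferInstance : Group A) with mul_comm := hc }
  have hexp : ∀ a : Additive A, q ^ j • a = 0 := by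
    rintro ⟨_, x, hx, rfl⟩
    refine Subtype.ext ?_
    change (π x) ^ q ^ j = 1
    rw [← map_pow]
    refine (QuotientGroup.eq_one_iff _).2 ?_
    rw [two_mul]
    exact hK.pow_pow hx j
  have hcard : Nat.card (Additive A) = q ^ (m * j) := by
    have h1 : Nat.card (Additive A) = Nat.card A := rfl
    rw [h1, ← relIndex_ker, QuotientGroup.ker_mk', two_mul]
    exact hK.rel_add hj j
  have hrange : (nsmulAddMonoidHom (α := Additive A) q).range.index ≤ q ^ m := by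
    have h1 : (nsmulAddMonoidHom (α := Additive A) q).range =
        Subgroup.toAddSubgroup (powMonoidHom (α := A) q).range := rfl
    have h2 : ((K (j + 1)).map π).relIndex A = q ^ m := by
      rw [relIndex_map_map, QuotientGroup.ker_mk', sup_eq_left.2 (hK.anti (by omega)),
        sup_eq_left.2 (hK.anti (by omega)), hK.rel hj]
    have h3 : ((K (j + 1)).map π).subgroupOf A ≤ (powMonoidHom (α := A) q).range := by
      intro a ha
      rw [mem_subgroupOf] at ha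
      obtain ⟨x, hx, hxa⟩ := ha
      obtain ⟨y, hy, hyx⟩ := hK.range hx
      refine ⟨⟨π y, _, hy, rfl⟩, Subtype.ext ?_⟩
      rw [← hxa]
      change (π y) ^ q = π x
      rw [← map_pow]
      exact QuotientGroup.eq.2 hyx
    have h4 : (((K (j + 1)).map π).subgroupOf A).FiniteIndex := ⟨by
      change ((K (j + 1)).map π).relIndex A ≠ 0
      rw [h2]
      exact pow_ne_zero _ hq.out.ne_zero⟩
    rw [h1, Subgroup.index_toAddSubgroup, ← h2]
    exact Subgroup.index_antitone h3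
  obtain ⟨e⟩ := homocyclic (A := Additive A) hj0 hexp hcard hrange
  let θ : G →* MulAut A := (MulAut.conjNormal (H := A)).comp π
  obtain ⟨C, hC⟩ := exists_matrix θ e
  refine ⟨C, fun g k D hk hD x hx => ?_⟩
  obtain ⟨⟨_, y, hy, rfl⟩, hb⟩ := hC g (q ^ k : ZMod (q ^ j)) D (q ^ k) (by push_cast; rfl) hD
    ⟨π x, _, hx, rfl⟩
  have h1 : π g * π x * (π g)⁻¹ = π x * π y ^ q ^ k := congrArg Subtype.val hb
  have h2 : π ⁅g, x⁆ = π (x * y ^ q ^ k * x⁻¹) := by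
    rw [commutatorElement_def, map_mul, map_mul, map_mul, map_inv, map_inv, h1]
    simp only [map_mul, map_pow, map_inv]
  have h3 : (x * y ^ q ^ k * x⁻¹)⁻¹ * ⁅g, x⁆ ∈ K (2 * j) := QuotientGroup.eq.1 h2.symm
  have h4 : x * y ^ q ^ k * x⁻¹ ∈ K (j + k) :=
    (hK.nor (j + k)).conj_mem _ (hK.pow_pow hy k) x
  have h5 := (K (j + k)).mul_mem h4 (hK.anti (by omega) h3)
  rwa [mul_inv_cancel_left] at h5

/-- `⁅g, z ^ q⁆` is `⁅g, z⁆ ^ q` modulo `K (c + 2)`. -/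
theorem Fil.comm_pow_step (hK : Fil q m s K) {c : ℕ} {g z : G} (hz : z ∈ K 0)
    (h : ⁅g, z⁆ ∈ K c) : (⁅g, z⁆ ^ q)⁻¹ * ⁅g, z ^ q⁆ ∈ K (c + 2) := by
  have hn : (K (c + 2)).Normal := hK.nor _
  have h1 : Commute ((⁅g, z⁆ : G) : G ⧸ K (c + 2)) (z : G ⧸ K (c + 2)) :=
    comm_iff.1 (hK.comm h hz)
  have h2 : (⁅g, z⁆ * z) = g * z * g⁻¹ := by rw [commutatorElement_def, inv_mul_cancel_right]
  have h3 : ⁅g, z ^ q⁆ = (⁅g, z⁆ * z) ^ q * (z ^ q)⁻¹ := by
    rw [h2, conj_pow, commutatorElement_def]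
  rw [← QuotientGroup.eq, h3, QuotientGroup.mk_mul, QuotientGroup.mk_pow, QuotientGroup.mk_pow,
    QuotientGroup.mk_mul, h1.mul_pow, QuotientGroup.mk_inv, QuotientGroup.mk_pow,
    mul_inv_cancel_right]

theorem Fil.climb (hK : Fil q m s K) {c : ℕ} (hc : s ≤ c)
    {g x : G} (hx : x ∈ K 0) (h1 : ⁅g, x⁆ ∈ K c) (h2 : ⁅g, x⁆ ∉ K (c + 1)) (k : ℕ) :
    ⁅g, x ^ q ^ k⁆ ∈ K (c + k) ∧ ⁅g, x ^ q ^ k⁆ ∉ K (c + k + 1) := by
  induction k with
  | zero => simpa using ⟨h1, h2⟩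
  | succ k ih =>
    obtain ⟨ih1, ih2⟩ := ih
    have h3 := hK.comm_pow_step ((K 0).pow_mem hx (q ^ k)) ih1
    rw [← pow_mul, ← pow_succ] at h3
    have h4 : ⁅g, x ^ q ^ k⁆ ^ q ∈ K (c + k + 1) := hK.pow ih1
    have h5 : _ ∈ K (c + k + 1) := hK.anti (by omega) h3
    refine ⟨?_, fun h6 => ih2 ?_⟩
    · have := (K (c + k + 1)).mul_mem h4 h5
      rwa [mul_inv_cancel_left] at this
    · refine hK.inj (by omega) ih1 ?_
      have h7 : ⁅g, x ^ q ^ (k + 1)⁆ ∈ K (c + k + 2) := h6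
      have := (K (c + k + 2)).mul_mem h7 ((K (c + k + 2)).inv_mem h3)
      rwa [mul_inv_rev, inv_inv, mul_inv_cancel_left] at this

/-- The representation over `ℤ_q`. -/
theorem Fil.exists_rep (hK : Fil q m s K) (hs : 1 ≤ s) :
    ∃ ρ : G →* Matrix (Fin m) (Fin m) ℤ_[q], ∀ g, ρ g = 1 → ∀ x ∈ K s, g * x = x * g := by
  choose C hC using fun n : ℕ => hK.exists_level (j := s + n) (by omega) (by omega)
  obtain ⟨ρ, hρ⟩ := exists_limit (q := q) (fun n => s + n)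
    (tendsto_atTop_mono (fun n => Nat.le_add_left n s) tendsto_id) C
  refine ⟨ρ, fun g h1 x hx => ?_⟩
  by_contra hne
  have hne' : ⁅g, x⁆ ≠ 1 := fun h => hne (commutatorElement_eq_one_iff_mul_comm.1 h)
  have hcs : ⁅g, x⁆ ∈ K s := by
    rw [commutatorElement_def]
    exact (K s).mul_mem ((hK.nor s).conj_mem _ hx g) ((K s).inv_mem hx)
  have hex : ∃ c, ⁅g, x⁆ ∉ K c := hK.sep _ (hK.anti (by omega) hcs) hne'
  classical
  have hmin := Nat.find_spec hex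
  have hmin' := fun {i : ℕ} (h : i < Nat.find hex) => Nat.find_min hex h
  have hlt : s < Nat.find hex := by
    by_contra h
    exact hmin (hK.anti (by omega) hcs)
  obtain ⟨c, hc⟩ : ∃ c, Nat.find hex = c + 1 := ⟨Nat.find hex - 1, by omega⟩
  rw [hc] at hmin hlt
  have h2 : ⁅g, x⁆ ∈ K c := by
    by_contra h
    exact hmin' (by omega) h
  obtain ⟨n, hn, D, hD⟩ := hρ g h1 (c + 1) (c + 1)
  have h3 := hC n g (c + 1) D (by omega) hD (x ^ q ^ n) (hK.pow_pow hx n)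
  have h4 := (hK.climb (by omega : s ≤ c) (hK.anti (Nat.zero_le s) hx) h2 hmin n).2
  exact h4 (hK.anti (by omega) h3)

/-- The representation over `ℚ_q`. -/
theorem Fil.exists_repQ (hK : Fil q m s K) (hs : 1 ≤ s) :
    ∃ ρ : G →* GL (Fin m) ℚ_[q], ∀ g, ρ g = 1 → ∀ x ∈ K s, g * x = x * g := by
  obtain ⟨ρ, hρ⟩ := hK.exists_rep hs
  refine ⟨(Matrix.GeneralLinearGroup.map (algebraMap ℤ_[q] ℚ_[q])).comp ρ.toHomUnits,
    fun g hg => hρ g ?_⟩
  ext a b
  have h2 := congrArg (fun M : GL (Fin m) ℚ_[q] => (M : Matrix (Fin m) (Fin m) ℚ_[q]) a b) hg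
  have h3 : algebraMap ℤ_[q] ℚ_[q] (ρ g a b) = (1 : Matrix (Fin m) (Fin m) ℚ_[q]) a b := h2
  have h4 : (1 : Matrix (Fin m) (Fin m) ℚ_[q]) a b =
      algebraMap ℤ_[q] ℚ_[q] ((1 : Matrix (Fin m) (Fin m) ℤ_[q]) a b) := by
    rw [Matrix.one_apply, Matrix.one_apply]
    split_ifs <;> simp
  rw [h4] at h3
  exact FaithfulSMul.algebraMap_injective ℤ_[q] ℚ_[q] h3

end Vale.Agent.P260.H811
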