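import Vale.Agent.P260.H811.Bound

namespace Vale.Agent.P260.H811

open Subgroup
open scoped commutatorElement
set_option linter.unusedSectionVars false
set_option linter.style.haveILetI false

variable {G : Type*} [Group G] {q : ℕ} [hq : Fact q.Prime]

/-- Three subgroups lemma modulo a normal subgroup. -/
theorem three_mod {U : Subgroup G} (hU : U.Normal) {H₁ H₂ H₃ : Subgroup G}
    (h1 : ⁅⁅H₂, H₃⁆, H₁⁆ ≤ U) (h2 : ⁅⁅H₃, H₁⁆, H₂⁆ ≤ U) : ⁅⁅H₁, H₂⁆, H₃⁆ ≤ U := by
  have key : ∀ K : Subgroup G, K ≤ U ↔ K.map (QuotientGroup.mk' U) = ⊥ := by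
    intro K
    rw [Subgroup.map_eq_bot_iff, QuotientGroup.ker_mk']
  rw [key, map_commutator, map_commutator] at h1 h2 ⊢
  exact commutator_commutator_eq_bot_of_rotate h1 h2

variable [Group.FG G] {W : Subgroup G}

theorem comm_L_le (hW : QN q W) (hG : Good q W) (i : ℕ) : ⁅L q W i, W⁆ ≤ L q W (i + 2) :=
  commutator_le.mpr fun _ hx _ hw => comm_L_two hW hG hx hw

theorem comm_L (hW : QN q W) (hG : Good q W) (k : ℕ) :
    ∀ i : ℕ, ⁅L q W i, L q W k⁆ ≤ L q W (i + k + 2) := by
  induction k with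
  | zero => exact fun i => comm_L_le hW hG i
  | succ k ih =>
    intro i
    have hUn : (L q W (i + (k + 1) + 2)).Normal := L_normal hW.nor _
    have hKn : (L q W i).Normal := L_normal hW.nor _
    have hsub : L q W (k + 1) ≤ Kc (L q W i) (L q W (i + (k + 1) + 2)) := by
      rw [L_succ, sup_le_iff, Subgroup.closure_le, commutator_le]
      constructor
      · rintro _ ⟨y, hy, rfl⟩
        rw [SetLike.mem_coe, mem_Kc]
        intro x hx
        have hc : ⁅x, y⁆ ∈ L q W (i + k + 2) := ih i (commutator_mem_commutator hx hy)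
        have hcy : ⁅⁅x, y⁆, y⁆ ∈ L q W (i + (k + 1) + 2) :=
          L_anti hW.nor (by omega) (comm_L_two hW hG hc (L_le hW.nor k hy))
        have hcq : ⁅x, y⁆ ^ q ∈ L q W (i + (k + 1) + 2) := by
          have := pow_mem_L (q := q) hc
          rwa [show i + k + 2 + 1 = i + (k + 1) + 2 by ring] at this
        rw [comm_mem_iff] at hcy ⊢
        rw [← QuotientGroup.eq_one_iff, QuotientGroup.mk_pow] at hcq
        set X : G ⧸ L q W (i + (k + 1) + 2) := (x : G ⧸ L q W (i + (k + 1) + 2)) with hX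
        set Y : G ⧸ L q W (i + (k + 1) + 2) := (y : G ⧸ L q W (i + (k + 1) + 2)) with hY
        have hC : ((⁅x, y⁆ : G) : G ⧸ L q W (i + (k + 1) + 2)) = X * Y * X⁻¹ * Y⁻¹ := rfl
        rw [hC] at hcy hcq
        have h1 : X * Y ^ q * X⁻¹ = Y ^ q := by
          have h2 : X * Y ^ q * X⁻¹ = (X * Y * X⁻¹) ^ q := by rw [conj_pow]
          have h3 : X * Y * X⁻¹ = (X * Y * X⁻¹ * Y⁻¹) * Y := by group
          rw [h2, h3, hcy.mul_pow, hcq, one_mul]
        rw [QuotientGroup.mk_pow]
        change X * Y ^ q = Y ^ q * X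
        calc X * Y ^ q = X * Y ^ q * X⁻¹ * X := by group
          _ = Y ^ q * X := by rw [h1]
      · intro a ha w hw
        rw [mem_Kc]
        intro x hx
        have h3 : ⁅⁅L q W k, W⁆, L q W i⁆ ≤ L q W (i + (k + 1) + 2) := by
          refine three_mod hUn ?_ ?_
          · refine (commutator_mono (K₁ := L q W (i + 2)) ?_ le_rfl).trans
              ((ih (i + 2)).trans (L_anti hW.nor (by omega)))
            rw [commutator_comm]
            exact comm_L_le hW hG i
          · exact (commutator_mono (ih i) le_rfl).trans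
              ((comm_L_le hW hG _).trans (L_anti hW.nor (by omega)))
        have h4 : ⁅⁅a, w⁆, x⁆ ∈ L q W (i + (k + 1) + 2) :=
          h3 (commutator_mem_commutator (commutator_mem_commutator ha hw) hx)
        rw [← commutatorElement_inv]
        exact inv_mem h4
    exact commutator_le.mpr fun x hx y hy => mem_Kc.mp (hsub hy) x hx

/-- The images of `L i` modulo `L t` commute for `t ≤ 2 i + 2`. -/
theorem commute_L (hW : QN q W) (hG : Good q W) {i t : ℕ} (ht : t ≤ 2 * i + 2)
    [(L q W t).Normal] {x y : G} (hx : x ∈ L q W i) (hy : y ∈ L q W i) :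
    Commute (x : G ⧸ L q W t) (y : G ⧸ L q W t) := by
  rw [← comm_mem_iff]
  exact L_anti hW.nor (by omega) (comm_L hW hG i i (commutator_mem_commutator hx hy))

/-- The `q`-power map `L i → G / L t`, `t ≤ 2 i + 2`. -/
def pmap (hW : QN q W) (hG : Good q W) (i t : ℕ) (ht : t ≤ 2 * i + 2)
    [(L q W t).Normal] : L q W i →* G ⧸ L q W t where
  toFun x := ((x : G) : G ⧸ L q W t) ^ q
  map_one' := by simp
  map_mul' x y := by
    rw [Subgroup.coe_mul, QuotientGroup.mk_mul]
    exact (commute_L hW hG ht x.2 y.2).mul_pow q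

theorem pmap_apply (hW : QN q W) (hG : Good q W) (i t : ℕ) (ht : t ≤ 2 * i + 2)
    [(L q W t).Normal] (x : L q W i) : pmap hW hG i t ht x = ((x : G) : G ⧸ L q W t) ^ q := rfl

/-- `L (i+1)` consists of `q`-th powers of elements of `L i` modulo `L t`, `t ≤ 2 i + 2`. -/
theorem map_L_le_range (hW : QN q W) (hG : Good q W) (i t : ℕ) (ht : t ≤ 2 * i + 2)
    [(L q W t).Normal] (n : ℕ) : ∀ s : ℕ, i + 1 ≤ s → t ≤ s + n →
      (L q W s).map (QuotientGroup.mk' (L q W t)) ≤ (pmap hW hG i t ht).range := by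
  induction n with
  | zero =>
    intro s _ h2
    have : (L q W s).map (QuotientGroup.mk' (L q W t)) = ⊥ := by
      rw [Subgroup.map_eq_bot_iff, QuotientGroup.ker_mk']
      exact L_anti hW.nor (by omega)
    rw [this]
    exact bot_le
  | succ n ih =>
    intro s h1 h2
    obtain ⟨s', rfl⟩ : ∃ s', s = s' + 1 := ⟨s - 1, by omega⟩
    rw [Subgroup.map_le_iff_le_comap]
    have h3 : (L q W (s' + 2)).map (QuotientGroup.mk' (L q W t)) ≤ (pmap hW hG i t ht).range :=
      ih (s' + 2) (by omega) (by omega)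
    rw [Subgroup.map_le_iff_le_comap] at h3
    rw [L_succ, sup_le_iff, Subgroup.closure_le]
    constructor
    · rintro _ ⟨y, hy, rfl⟩
      exact ⟨⟨y, L_anti hW.nor (by omega) hy⟩, rfl⟩
    · exact (comm_L_le hW hG s').trans h3

theorem ker_pmap_ge (hW : QN q W) (hG : Good q W) (i : ℕ) [(L q W (i + 2)).Normal] :
    (L q W (i + 1)).subgroupOf (L q W i) ≤ (pmap hW hG i (i + 2) (by omega)).ker := by
  intro x hx
  rw [MonoidHom.mem_ker, pmap_apply, ← QuotientGroup.mk_pow, QuotientGroup.eq_one_iff]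
  exact pow_mem_L hx

theorem index_ker_pmap (hW : QN q W) (hG : Good q W) (i : ℕ) [(L q W (i + 2)).Normal] :
    (pmap hW hG i (i + 2) (by omega)).ker.index = (L q W (i + 2)).relIndex (L q W (i + 1)) := by
  rw [Subgroup.index_ker]
  have h1 : (pmap hW hG i (i + 2) (by omega)).range =
      (L q W (i + 1)).map (QuotientGroup.mk' (L q W (i + 2))) := by
    apply le_antisymm
    · rintro _ ⟨x, rfl⟩
      exact ⟨_, pow_mem_L x.2, rfl⟩
    · exact map_L_le_range hW hG i (i + 2) (by omega) 1 (i + 1) le_rfl (by omega)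
  rw [h1, ← Subgroup.relIndex_ker, QuotientGroup.ker_mk']

theorem relIndex_L_ne_zero (hW : QN q W) (i j : ℕ) : (L q W i).relIndex (L q W j) ≠ 0 := by
  have := (QN_L hW i).finiteIndex
  exact fun h => this.index_ne_zero (index_eq_zero_of_relIndex_eq_zero h)

/-- The orders of the factors of the series are nonincreasing. -/
theorem relIndex_anti (hW : QN q W) (hG : Good q W) (i : ℕ) :
    (L q W (i + 2)).relIndex (L q W (i + 1)) ≤ (L q W (i + 1)).relIndex (L q W i) := by
  have hn : (L q W (i + 2)).Normal := L_normal hW.nor _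
  rw [← index_ker_pmap hW hG i]
  have : ((L q W (i + 1)).subgroupOf (L q W i)).FiniteIndex :=
    ⟨relIndex_L_ne_zero hW (i + 1) i⟩
  exact Subgroup.index_antitone (ker_pmap_ge hW hG i)

theorem exists_stable (hW : QN q W) (hG : Good q W) : ∃ s : ℕ, 1 ≤ s ∧ ∀ i, s ≤ i →
    (L q W (i + 1)).relIndex (L q W i) = (L q W (s + 1)).relIndex (L q W s) := by
  let c : ℕ → ℕ := fun i => (L q W (i + 2)).relIndex (L q W (i + 1))
  have hc : Antitone c := antitone_nat_of_succ_le fun i => relIndex_anti hW hG (i + 1)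
  obtain ⟨s, hs⟩ := Nat.sInf_mem (Set.range_nonempty c)
  refine ⟨s + 1, by omega, fun i hi => ?_⟩
  obtain ⟨i', rfl⟩ : ∃ i', i = i' + 1 := ⟨i - 1, by omega⟩
  exact le_antisymm (hc (by omega : s ≤ i')) (hs.le.trans (Nat.sInf_le ⟨i', rfl⟩))

/-- Injectivity of the power map in the stable range. -/
theorem pow_inj (hW : QN q W) (hG : Good q W) {s : ℕ} (hs : ∀ i, s ≤ i →
    (L q W (i + 1)).relIndex (L q W i) = (L q W (s + 1)).relIndex (L q W s)) {i : ℕ} (hi : s ≤ i)
    {x : G} (hx : x ∈ L q W i) (hxq : x ^ q ∈ L q W (i + 2)) : x ∈ L q W (i + 1) := by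
  have hn : (L q W (i + 2)).Normal := L_normal hW.nor _
  have h1 := index_ker_pmap hW hG i
  rw [hs (i + 1) (by omega), ← hs i hi] at h1
  have h2 := ker_pmap_ge hW hG i
  have hf : ((L q W (i + 1)).subgroupOf (L q W i)).FiniteIndex :=
    ⟨relIndex_L_ne_zero hW (i + 1) i⟩
  have h3 : (L q W (i + 1)).subgroupOf (L q W i) = (pmap hW hG i (i + 2) (by omega)).ker := by
    rcases eq_or_lt_of_le h2 with h | h
    · exact h
    · have := Subgroup.index_strictAnti h
      rw [h1] at this
      exact absurd this (lt_irrefl _)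
  have h4 : (⟨x, hx⟩ : L q W i) ∈ (L q W (i + 1)).subgroupOf (L q W i) := by
    rw [h3, MonoidHom.mem_ker, pmap_apply, ← QuotientGroup.mk_pow, QuotientGroup.eq_one_iff]
    exact hxq
  exact h4

theorem exists_rank (hW : QN q W) (s : ℕ) :
    ∃ m : ℕ, (L q W (s + 1)).relIndex (L q W s) = q ^ m := by
  obtain ⟨n, hn⟩ := (QN_L hW (s + 1)).idx
  have h1 := Subgroup.relIndex_mul_index (L_succ_le (q := q) hW.nor s)
  rw [hn] at h1
  obtain ⟨m, _, hm⟩ := (Nat.dvd_prime_pow hq.out).mp (Dvd.intro _ h1)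
  exact ⟨m, hm⟩

theorem relIndex_L (hW : QN q W) {s m : ℕ} (hs : ∀ i, s ≤ i →
    (L q W (i + 1)).relIndex (L q W i) = q ^ m) {i : ℕ} (hi : s ≤ i) (t : ℕ) :
    (L q W (i + t)).relIndex (L q W i) = q ^ (m * t) := by
  induction t with
  | zero => simp
  | succ t ih =>
    have h1 := Subgroup.relIndex_mul_relIndex (L q W (i + t + 1)) (L q W (i + t)) (L q W i)
      (L_succ_le hW.nor _) (L_anti hW.nor (by omega))
    rw [← add_assoc, ← h1, ih, hs (i + t) (by omega), ← pow_add]
    congr 1
    ring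

theorem pow_pow_mem_L {i : ℕ} {x : G} (hx : x ∈ L q W i) (k : ℕ) : x ^ q ^ k ∈ L q W (i + k) := by
  induction k with
  | zero => simpa using hx
  | succ k ih =>
    rw [pow_succ, pow_mul, ← add_assoc]
    exact pow_mem_L ih

/-- The series is cofinal among the subgroups of `q`-power index. -/
theorem L_cofinal (n : ℕ) : ∀ U : Subgroup G, QN q U → U.index = n →
    ∃ c, L q W c ≤ U := by
  induction n using Nat.strong_induction_on with
  | _ n ih =>
    intro U hU hn
    rcases eq_or_lt_of_le (le_top : U ≤ ⊤) with h | h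
    · exact ⟨0, h ▸ le_top⟩
    · have hUn := hU.nor
      have hUf := hU.finiteIndex
      have hfin := hU.finite
      have hnt : Nontrivial (G ⧸ U) := by
        rw [QuotientGroup.nontrivial_iff]
        exact h.ne
      have hcn : Nontrivial (center (G ⧸ U)) := hU.isPGroup.center_nontrivial
      have hdvd : q ∣ Nat.card (center (G ⧸ U)) := by
        obtain ⟨k, hk, hc⟩ := (IsPGroup.nontrivial_iff_card
          (hU.isPGroup.to_subgroup (center (G ⧸ U)))).mp hcn
        rw [hc]
        exact dvd_pow_self q hk.ne'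
      obtain ⟨z, hz⟩ := exists_prime_orderOf_dvd_card' q hdvd
      have hzq : (z : G ⧸ U) ^ q = 1 := by
        have := pow_orderOf_eq_one z
        rw [hz] at this
        exact congrArg Subtype.val this
      have hz1 : (z : G ⧸ U) ≠ 1 := by
        intro h1
        have : z = 1 := Subtype.ext h1
        rw [this, orderOf_one] at hz
        exact hq.out.one_lt.ne hz
      have hzc : ∀ g : G ⧸ U, Commute g (z : G ⧸ U) := fun g => (mem_center_iff.mp z.2 g)
      have hzn : (zpowers (z : G ⧸ U)).Normal := by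
        constructor
        intro n hn g
        obtain ⟨k, rfl⟩ := mem_zpowers_iff.mp hn
        have hc : Commute g ((z : G ⧸ U) ^ k) := Commute.zpow_right (hzc g) k
        rw [hc.eq, mul_inv_cancel_right]
        exact hn
      let U' : Subgroup G := (zpowers (z : G ⧸ U)).comap (QuotientGroup.mk' U)
      have hU'n : U'.Normal := Subgroup.Normal.comap hzn _
      have hUU' : U ≤ U' := by
        intro x hx
        have : QuotientGroup.mk' U x = 1 := (QuotientGroup.eq_one_iff x).mpr hx
        change QuotientGroup.mk' U x ∈ zpowers (z : G ⧸ U)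
        rw [this]
        exact one_mem _
      have hne : U ≠ U' := by
        intro h1
        obtain ⟨z0, hz0⟩ := QuotientGroup.mk_surjective (z : G ⧸ U)
        have h2 : z0 ∈ U' := by
          change (z0 : G ⧸ U) ∈ zpowers (z : G ⧸ U)
          rw [hz0]
          exact mem_zpowers _
        rw [← h1] at h2
        exact hz1 (by rw [← hz0]; exact (QuotientGroup.eq_one_iff z0).mpr h2)
      have hlt : U < U' := lt_of_le_of_ne hUU' hne
      obtain ⟨c, hc⟩ := ih U'.index (by rw [← hn]; exact Subgroup.index_strictAnti hlt) U'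
        (hU.mono hU'n hUU') rfl
      refine ⟨c + 1, ?_⟩
      rw [L_succ, sup_le_iff, Subgroup.closure_le, commutator_le]
      constructor
      · rintro _ ⟨y, hy, rfl⟩
        obtain ⟨k, hk⟩ := mem_zpowers_iff.mp (show (y : G ⧸ U) ∈ zpowers (z : G ⧸ U) from hc hy)
        rw [SetLike.mem_coe, ← QuotientGroup.eq_one_iff, QuotientGroup.mk_pow, ← hk,
          ← zpow_natCast, ← zpow_mul, mul_comm, zpow_mul, zpow_natCast, hzq, one_zpow]
      · intro y hy w _
        obtain ⟨k, hk⟩ := mem_zpowers_iff.mp (show (y : G ⧸ U) ∈ zpowers (z : G ⧸ U) from hc hy)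
        rw [comm_mem_iff, ← hk]
        exact ((hzc w).symm).zpow_left k

end Vale.Agent.P260.H811
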