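import Vale.Agent.P260.Defs
import Vale.Agent.P260.H811.Bound
import Vale.Agent.P260.H811.Series
import Vale.Agent.P260.H811.Fil

/-!
Block E2: a finitely generated group `G` with a normal subgroup `H` of finite index which is
residually `q` and bounded `q`-rank has a representation over `ℚ_q` whose kernel centralises a
normal subgroup of finite index.
-/

namespace Vale.Agent.P260.H811

open Subgroup
open scoped commutatorElement
set_option linter.unusedSectionVars false
set_option linter.style.haveILetI false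

variable {G : Type*} [Group G] {q : ℕ} [hq : Fact q.Prime]

theorem QN.comap {U : Subgroup G} (h : QN q U) (φ : G ≃* G) : QN q (U.comap φ.toMonoidHom) := by
  obtain ⟨n, hn⟩ := h.idx
  have := h.nor
  refine ⟨inferInstance, n, ?_⟩
  rw [Subgroup.index_comap_of_surjective _ φ.surjective, hn]

/-- Existence of a characteristic `W`. -/
theorem exists_good_char [Group.FG G] {r : ℕ}
    (hr : ∀ N : Subgroup G, QN q N → Nat.card (N →* Multiplicative (ZMod q)) ≤ q ^ r) :
    ∃ W : Subgroup G, W.Characteristic ∧ QN q W ∧ Good q W := by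
  have hfin : Finite (G →* Equiv.Perm (Fin (q ^ (2 * r)))) := finite_hom _ _
  let S : Set (Subgroup G) := {K | QN q K} ∩ Set.range fun f : G →* Equiv.Perm (Fin (q ^ (2 * r))) =>
    f.ker
  have hS : S.Finite := (Set.finite_range _).subset Set.inter_subset_right
  refine ⟨sInf S, ?_, QN.sInf hS fun U hU => hU.1, fun N hN x hx w hw => ?_⟩
  · rw [characteristic_iff_le_comap]
    intro φ x hx
    rw [mem_comap, mem_sInf]
    intro U hU
    have hU' : U.comap φ.toMonoidHom ∈ S := by
      obtain ⟨h1, f, hf⟩ := hU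
      refine ⟨h1.comap φ, f.comp φ.toMonoidHom, ?_⟩
      rw [← hf]
      rfl
    exact mem_sInf.mp hx _ hU'
  · have hFn : (Fr q 2 N).Normal := Fr_normal hN.nor
    obtain ⟨f, hf⟩ := Kc_eq_ker hN (hr N hN)
    have hK : Kc N (Fr q 2 N) ∈ S := by
      refine ⟨?_, f, hf⟩
      refine hN.mono (by rw [← hf]; infer_instance) fun g hg => ?_
      rw [mem_Kc]
      exact fun x hx => comm_mem_Fr hx hg
    exact mem_Kc.mp (mem_sInf.mp hw _ hK) x hx

theorem L_char {W : Subgroup G} (hW : W.Characteristic) (i : ℕ) : (L q W i).Characteristic := by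
  induction i with
  | zero => exact hW
  | succ i ih =>
    rw [characteristic_iff_map_le] at ih hW ⊢
    intro φ
    rw [L_succ, Subgroup.map_sup, MonoidHom.map_closure, map_commutator]
    refine sup_le_sup (closure_mono ?_) (commutator_mono (ih φ) (hW φ))
    rintro _ ⟨_, ⟨x, hx, rfl⟩, rfl⟩
    exact ⟨φ x, ih φ ⟨x, hx, rfl⟩, (map_pow φ x q).symm⟩

theorem card_hom_congr {A B : Type*} [Group A] [Group B] (e : A ≃* B) (C : Type*) [CommGroup C] :
    Nat.card (A →* C) = Nat.card (B →* C) :=
  Nat.card_congr e.monoidHomCongrLeftEquiv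

/-- The rank of the filtration is bounded. -/
theorem rank_le [Group.FG G] {W : Subgroup G} (hW : QN q W) {s m r : ℕ}
    (hm : (L q W (s + 1)).relIndex (L q W s) = q ^ m)
    (hr : Nat.card (L q W s →* Multiplicative (ZMod q)) ≤ q ^ r) : m ≤ r := by
  have hn : (L q W (s + 1)).Normal := L_normal hW.nor _
  have hfs : (L q W s).FiniteIndex := (QN_L hW s).finiteIndex
  have hfg : Group.FG (L q W s) := Subgroup.fg_of_index_ne_zero _
  have hfM : Finite (Multiplicative (ZMod q)) := Finite.of_equiv (ZMod q) Multiplicative.ofAdd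
  have hfh := finite_hom (L q W s) (Multiplicative (ZMod q))
  have hfin : Finite (L q W s ⧸ (L q W (s + 1)).subgroupOf (L q W s)) := by
    have h : (L q W (s + 1)).relIndex (L q W s) ≠ 0 := by
      rw [hm]
      exact pow_ne_zero _ hq.out.ne_zero
    rw [Subgroup.relIndex, Subgroup.index_ne_zero_iff_finite] at h
    exact h
  letI : CommGroup (L q W s ⧸ (L q W (s + 1)).subgroupOf (L q W s)) :=
    { (inferInstance : Group (L q W s ⧸ (L q W (s + 1)).subgroupOf (L q W s))) with
      mul_comm := by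
        intro a b
        induction a using QuotientGroup.induction_on with
        | H a =>
          induction b using QuotientGroup.induction_on with
          | H b =>
            rw [← QuotientGroup.mk_mul, ← QuotientGroup.mk_mul, eq_comm, QuotientGroup.eq,
              Subgroup.mem_subgroupOf]
            have := comm_mem_L (q := q) ((L q W s).inv_mem a.2)
              (L_le hW.nor s ((L q W s).inv_mem b.2))
            rw [commutatorElement_def] at this
            simpa [mul_assoc] using this }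
  have h1 := card_elem' (q := q) (L q W s ⧸ (L q W (s + 1)).subgroupOf (L q W s)) (fun x => by
    induction x using QuotientGroup.induction_on with
    | H x =>
      rw [← QuotientGroup.mk_pow, QuotientGroup.eq_one_iff, Subgroup.mem_subgroupOf]
      exact pow_mem_L x.2)
  have h2 : Nat.card (L q W s ⧸ (L q W (s + 1)).subgroupOf (L q W s)) = q ^ m := hm
  have h3 := card_hom_le (B := Multiplicative (ZMod q))
    (QuotientGroup.mk' ((L q W (s + 1)).subgroupOf (L q W s))) (QuotientGroup.mk'_surjective _)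
  rw [← h1, h2] at h3
  exact (Nat.pow_le_pow_iff_right hq.out.one_lt).mp (h3.trans hr)

theorem exists_fil [Group.FG G] (H : Subgroup G) (hH : H.Normal) (hHf : H.FiniteIndex)
    (hres : ResQ q H) (r : ℕ)
    (hr : ∀ N : Subgroup G, N.FiniteIndex → Nat.card (N →* Multiplicative (ZMod q)) ≤ q ^ r) :
    ∃ (s m : ℕ) (K : ℕ → Subgroup G), 1 ≤ s ∧ m ≤ r ∧ Fil q m s K := by
  have hfg : Group.FG H := Subgroup.fg_of_index_ne_zero H
  have hfi : ∀ N : Subgroup H, N.FiniteIndex → (N.map H.subtype).FiniteIndex := fun N hN => ⟨by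
    rw [index_map_subtype]
    exact mul_ne_zero hN.index_ne_zero hHf.index_ne_zero⟩
  have hr' : ∀ N : Subgroup H, QN q N → Nat.card (N →* Multiplicative (ZMod q)) ≤ q ^ r := by
    intro N hN
    rw [card_hom_congr (N.equivMapOfInjective H.subtype H.subtype_injective)]
    exact hr _ (hfi N hN.finiteIndex)
  obtain ⟨W, hWc, hW, hG⟩ := exists_good_char (q := q) hr'
  obtain ⟨s, hs1, hs⟩ := exists_stable (q := q) hW hG
  obtain ⟨m, hm⟩ := exists_rank (q := q) hW s
  refine ⟨s, m, fun i => (L q W i).map H.subtype, hs1, rank_le hW hm (hr' _ (QN_L hW s)), ?_⟩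
  constructor
  · intro i
    have := L_char (q := q) hWc i
    infer_instance
  · exact fun i => hfi _ (QN_L hW i).finiteIndex
  · exact fun h => map_mono (L_anti hW.nor h)
  · rintro i _ _ ⟨x, hx, rfl⟩ ⟨w, hw, rfl⟩
    rw [← map_commutatorElement]
    exact mem_map_of_mem _ (comm_L_two hW hG hx hw)
  · rintro i _ _ ⟨x, hx, rfl⟩ ⟨y, hy, rfl⟩
    rw [← map_commutatorElement]
    exact mem_map_of_mem _ (L_anti hW.nor (by omega)
      (comm_L hW hG i i (commutator_mem_commutator hx hy)))
  · rintro i _ ⟨x, hx, rfl⟩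
    rw [← map_pow]
    exact mem_map_of_mem _ (pow_mem_L hx)
  · intro i hi
    rw [relIndex_map_map_of_injective _ _ H.subtype_injective, hs i hi, hm]
  · rintro i _ ⟨x, hx, rfl⟩
    have hn : (L q W (2 * i)).Normal := L_normal hW.nor _
    obtain ⟨y, hy⟩ := map_L_le_range hW hG i (2 * i) (by omega) (2 * i) (i + 1) le_rfl
      (by omega) (mem_map_of_mem _ hx)
    refine ⟨H.subtype y, mem_map_of_mem _ y.2, ?_⟩
    rw [← map_pow, ← map_inv, ← map_mul]
    exact mem_map_of_mem _ (QuotientGroup.eq.1 hy)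
  · rintro i _ hi ⟨x, hx, rfl⟩ hxq
    rw [← map_pow] at hxq
    have hxq' : x ^ q ∈ L q W (i + 2) := (mem_map_iff_mem H.subtype_injective).1 hxq
    exact mem_map_of_mem _ (pow_inj hW hG hs hi hx hxq')
  · rintro _ ⟨x, hx, rfl⟩ hx1
    obtain ⟨U, hUn, hxU, hUi⟩ := hres x (fun h => hx1 (by rw [h, map_one]))
    obtain ⟨c, hc⟩ := L_cofinal (W := W) U.index U ⟨hUn, hUi⟩ rfl
    exact ⟨c, fun h => hxU (hc ((mem_map_iff_mem H.subtype_injective).1 h))⟩

end Vale.Agent.P260.H811

namespace Vale.Agent.P260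

open H811 in
/-- The statement of block E2. -/
theorem blockE2_lit (q : ℕ) [Fact q.Prime] (G : Type*) [Group G] (hfg : Group.FG G)
    (H : Subgroup G) (hH : H.Normal) (hHf : H.FiniteIndex) (hres : ResQ q H) (r : ℕ)
    (hr : ∀ L : Subgroup G, L.FiniteIndex → Nat.card (L →* Multiplicative (ZMod q)) ≤ q ^ r) :
    ∃ m ≤ r, ∃ (ρ : G →* GL (Fin m) ℚ_[q]) (N : Subgroup G), N.Normal ∧ N.FiniteIndex ∧
      ∀ g, ρ g = 1 → ∀ x ∈ N, g * x = x * g := by
  obtain ⟨s, m, K, hs, hm, hK⟩ := exists_fil H hH hHf hres r hr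
  obtain ⟨ρ, hρ⟩ := hK.exists_repQ hs
  exact ⟨m, hm, ρ, K s, hK.nor s, hK.fin s, hρ⟩

end Vale.Agent.P260
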