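import Mathlib

/-!
Homocyclic groups: a finite abelian group `A` with `q^j A = 0`, `|A| = q^(mj)`,
`|A/qA| ≤ q^m` is isomorphic to `(Z/q^j)^m`.
-/

namespace Vale.Agent.P260.H811

set_option linter.unusedSectionVars false
set_option linter.style.haveILetI false

variable {q : ℕ} [hq : Fact q.Prime]

theorem exists_gen0 (E : Type*) [AddCommGroup E] [Finite E] [Module (ZMod q) E] :
    ∃ e : Fin (Module.finrank (ZMod q) E) → E, AddSubgroup.closure (Set.range e) = ⊤ := by
  let b := Module.finBasis (ZMod q) E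
  refine ⟨b, ?_⟩
  rw [eq_top_iff]
  intro x _
  rw [← b.sum_repr x]
  refine AddSubgroup.sum_mem _ fun i _ => ?_
  have h : (b.repr x i) • b i = (b.repr x i).val • b i := by
    rw [← Nat.cast_smul_eq_nsmul (ZMod q), ZMod.natCast_zmod_val]
  rw [h]
  exact AddSubgroup.nsmul_mem _ (AddSubgroup.subset_closure (Set.mem_range_self i)) _

theorem card_pow' (E : Type*) [AddCommGroup E] [Finite E] [Module (ZMod q) E] :
    Nat.card E = q ^ Module.finrank (ZMod q) E := by
  rw [Module.natCard_eq_pow_finrank (K := ZMod q), Nat.card_zmod]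

theorem exists_gen (E : Type*) [AddCommGroup E] [Finite E] (h : ∀ x : E, q • x = 0) {m : ℕ}
    (hm : Nat.card E ≤ q ^ m) :
    ∃ d ≤ m, ∃ e : Fin d → E, AddSubgroup.closure (Set.range e) = ⊤ := by
  let mE : Module (ZMod q) E := AddCommGroup.zmodModule h
  have h1 := card_pow' (q := q) E
  obtain ⟨e, he⟩ := exists_gen0 (q := q) E
  rw [h1] at hm
  exact ⟨_, (Nat.pow_le_pow_iff_right hq.out.one_lt).mp hm, e, he⟩

theorem homocyclic0 {A : Type*} [AddCommGroup A] [Finite A] {m j : ℕ} (hj : 0 < j)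
    [Module (ZMod (q ^ j)) A] (h2 : Nat.card A = q ^ (m * j))
    (h3 : (nsmulAddMonoidHom (α := A) q).range.index ≤ q ^ m) :
    Nonempty (A ≃+ (Fin m → ZMod (q ^ j))) := by
  have hqj : NeZero (q ^ j) := ⟨pow_ne_zero _ hq.out.ne_zero⟩
  let R := (nsmulAddMonoidHom (α := A) q).range
  obtain ⟨d, hd, eb, heb⟩ := exists_gen (q := q) (A ⧸ R) (m := m) (fun x => by
    induction x using QuotientAddGroup.induction_on with
    | H x =>
      rw [← QuotientAddGroup.mk_nsmul, QuotientAddGroup.eq_zero_iff]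
      exact ⟨x, rfl⟩) h3
  choose e he using fun i => QuotientAddGroup.mk_surjective (eb i)
  let S : AddSubgroup A := AddSubgroup.closure (Set.range e)
  have hSR : ∀ a : A, ∃ s ∈ S, ∃ b : A, a = s + q • b := by
    intro a
    have h4 : (a : A ⧸ R) ∈ S.map (QuotientAddGroup.mk' R) := by
      have : S.map (QuotientAddGroup.mk' R) = ⊤ := by
        rw [AddMonoidHom.map_closure, ← heb]
        congr 1
        ext y
        constructor
        · rintro ⟨_, ⟨i, rfl⟩, rfl⟩
          exact ⟨i, (he i).symm⟩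
        · rintro ⟨i, rfl⟩
          exact ⟨e i, ⟨i, rfl⟩, he i⟩
      rw [this]
      trivial
    obtain ⟨s, hs, hsa⟩ := h4
    have h5 : (s : A ⧸ R) = (a : A ⧸ R) := hsa
    rw [QuotientAddGroup.eq] at h5
    obtain ⟨b, hb⟩ := h5
    have hb' : q • b = -s + a := hb
    exact ⟨s, hs, b, by rw [hb']; abel⟩
  have hS : ∀ k : ℕ, ∀ a : A, ∃ s ∈ S, ∃ b : A, a = s + q ^ k • b := by
    intro k
    induction k with
    | zero => intro a; exact ⟨0, S.zero_mem, a, by simp⟩
    | succ k ih =>
      intro a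
      obtain ⟨s, hs, b, rfl⟩ := ih a
      obtain ⟨s', hs', b', rfl⟩ := hSR b
      refine ⟨s + q ^ k • s', S.add_mem hs (S.nsmul_mem hs' _), b', ?_⟩
      rw [smul_add, smul_smul, ← pow_succ, add_assoc]
  have hz : ∀ a : A, q ^ j • a = 0 := by
    intro a
    rw [← Nat.cast_smul_eq_nsmul (ZMod (q ^ j)), ZMod.natCast_self, zero_smul]
  have hStop : ∀ a : A, a ∈ S := by
    intro a
    obtain ⟨s, hs, b, rfl⟩ := hS j a
    rw [hz, add_zero]
    exact hs
  let f : (Fin d → ZMod (q ^ j)) →ₗ[ZMod (q ^ j)] A := Fintype.linearCombination (ZMod (q ^ j)) e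
  have hf : Function.Surjective f := by
    intro a
    have h6 : S ≤ f.range.toAddSubgroup := by
      rw [AddSubgroup.closure_le]
      rintro _ ⟨i, rfl⟩
      refine ⟨Pi.single i 1, ?_⟩
      change Fintype.linearCombination (ZMod (q ^ j)) e (Pi.single i 1) = e i
      rw [Fintype.linearCombination_apply_single, one_smul]
    exact h6 (hStop a)
  have hcard : Nat.card (Fin d → ZMod (q ^ j)) = q ^ (d * j) := by
    rw [Nat.card_fun, Nat.card_zmod, Nat.card_fin, ← pow_mul, mul_comm]
  have hle := Nat.card_le_card_of_surjective f hf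
  rw [h2, hcard, Nat.pow_le_pow_iff_right hq.out.one_lt] at hle
  have hmd : m ≤ d := Nat.le_of_mul_le_mul_right hle hj
  obtain rfl : d = m := le_antisymm hd hmd
  have hbij : Function.Bijective f := by
    rw [Nat.bijective_iff_surjective_and_card]
    exact ⟨hf, by rw [hcard, h2]⟩
  exact ⟨(LinearEquiv.ofBijective f hbij).toAddEquiv.symm⟩

theorem homocyclic {A : Type*} [AddCommGroup A] [Finite A] {m j : ℕ} (hj : 0 < j)
    (h1 : ∀ a : A, q ^ j • a = 0) (h2 : Nat.card A = q ^ (m * j))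
    (h3 : (nsmulAddMonoidHom (α := A) q).range.index ≤ q ^ m) :
    Nonempty (A ≃+ (Fin m → ZMod (q ^ j))) := by
  let mA : Module (ZMod (q ^ j)) A := AddCommGroup.zmodModule h1
  exact homocyclic0 hj h2 h3

end Vale.Agent.P260.H811
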