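import Vale.Agent.P260.H811.Series
import Vale.Agent.P260.H811.Hom
import Vale.Agent.P260.H811.Mat

/-!
The representation of `G` on `L j / L (2 j)`, isomorphic to `(Z/q^j)^m`.
-/

namespace Vale.Agent.P260.H811

open Subgroup
open scoped commutatorElement
set_option linter.unusedSectionVars false
set_option linter.style.haveILetI false

variable {G : Type*} [Group G] {q : ℕ} [hq : Fact q.Prime] [Group.FG G] {W : Subgroup G}

theorem exists_level (hW : QN q W) (hG : Good q W) {s m : ℕ} (hs : ∀ i, s ≤ i →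
    (L q W (i + 1)).relIndex (L q W i) = q ^ m) {j : ℕ} (hj : s ≤ j) (hj0 : 1 ≤ j) :
    ∃ C : G →* Matrix (Fin m) (Fin m) (ZMod (q ^ j)), ∀ (g : G) (k : ℕ)
      (D : Matrix (Fin m) (Fin m) (ZMod (q ^ j))), k ≤ j →
      C g = 1 + (q ^ k : ZMod (q ^ j)) • D → ∀ x ∈ L q W j, ⁅g, x⁆ ∈ L q W (j + k) := by
  have hnj : (L q W j).Normal := L_normal hW.nor _
  have hn : (L q W (2 * j)).Normal := L_normal hW.nor _
  have hfi : (L q W (2 * j)).FiniteIndex := (QN_L hW _).finiteIndex
  let π : G →* G ⧸ L q W (2 * j) := QuotientGroup.mk' _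
  let A : Subgroup (G ⧸ L q W (2 * j)) := (L q W j).map π
  have hA : A.Normal := hnj.map π (QuotientGroup.mk'_surjective _)
  have hc : ∀ a b : A, a * b = b * a := by
    rintro ⟨_, x, hx, rfl⟩ ⟨_, y, hy, rfl⟩
    exact Subtype.ext (commute_L hW hG (by omega) hx hy)
  let mA : CommGroup A := { (inferInstance : Group A) with mul_comm := hc }
  have hexp : ∀ a : Additive A, q ^ j • a = 0 := by
    rintro ⟨_, x, hx, rfl⟩
    refine Subtype.ext ?_
    change (π x) ^ q ^ j = 1
    rw [← map_pow]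
    refine (QuotientGroup.eq_one_iff _).2 ?_
    rw [two_mul]
    exact pow_pow_mem_L hx j
  have hcard : Nat.card (Additive A) = q ^ (m * j) := by
    have h1 : Nat.card (Additive A) = Nat.card A := rfl
    rw [h1, ← relIndex_ker, QuotientGroup.ker_mk', two_mul]
    exact relIndex_L hW hs hj j
  have hrange : (nsmulAddMonoidHom (α := Additive A) q).range.index ≤ q ^ m := by
    have h1 : (nsmulAddMonoidHom (α := Additive A) q).range =
        Subgroup.toAddSubgroup (powMonoidHom (α := A) q).range := rfl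
    have h2 : ((L q W (j + 1)).map π).relIndex A = q ^ m := by
      rw [relIndex_map_map, QuotientGroup.ker_mk',
        sup_eq_left.2 (L_anti hW.nor (by omega : j + 1 ≤ 2 * j)),
        sup_eq_left.2 (L_anti hW.nor (by omega : j ≤ 2 * j)), hs j hj]
    have h3 : ((L q W (j + 1)).map π).subgroupOf A ≤ (powMonoidHom (α := A) q).range := by
      intro a ha
      rw [mem_subgroupOf] at ha
      obtain ⟨x, hx⟩ := map_L_le_range hW hG j (2 * j) (by omega) (2 * j) (j + 1) le_rfl
        (by omega) ha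
      refine ⟨⟨π x, _, x.2, rfl⟩, Subtype.ext ?_⟩
      exact hx
    have h4 : (((L q W (j + 1)).map π).subgroupOf A).FiniteIndex := ⟨by
      change ((L q W (j + 1)).map π).relIndex A ≠ 0
      rw [h2]
      exact pow_ne_zero _ hq.out.ne_zero⟩
    rw [h1, Subgroup.index_toAddSubgroup, ← h2]
    exact Subgroup.index_antitone h3
  obtain ⟨e⟩ := homocyclic (A := Additive A) hj0 hexp hcard hrange
  let θ : G →* MulAut A := (MulAut.conjNormal (H := A)).comp π
  obtain ⟨C, hC⟩ := exists_matrix θ e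
  refine ⟨C, fun g k D hk hD x hx => ?_⟩
  obtain ⟨⟨_, y, hy, rfl⟩, hb⟩ := hC g (q ^ k : ZMod (q ^ j)) D (q ^ k) (by push_cast; rfl) hD
    ⟨π x, _, hx, rfl⟩
  have h1 : π g * π x * (π g)⁻¹ = π x * π y ^ q ^ k := congrArg Subtype.val hb
  have h2 : π ⁅g, x⁆ = π (x * y ^ q ^ k * x⁻¹) := by
    rw [commutatorElement_def, map_mul, map_mul, map_mul, map_inv, map_inv, h1]
    simp only [map_mul, map_pow, map_inv]
  have h3 : (x * y ^ q ^ k * x⁻¹)⁻¹ * ⁅g, x⁆ ∈ L q W (2 * j) := QuotientGroup.eq.1 h2.symm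
  have h4 : x * y ^ q ^ k * x⁻¹ ∈ L q W (j + k) :=
    (L_normal hW.nor (j + k)).conj_mem _ (pow_pow_mem_L hy k) x
  have h5 := (L q W (j + k)).mul_mem h4 (L_anti hW.nor (by omega) h3)
  rwa [mul_inv_cancel_left] at h5

end Vale.Agent.P260.H811
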