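import Vale.Agent.P260.Defs
import Vale.Agent.P260.H811.Bound
import Vale.Agent.P260.H811.Level
import Vale.Agent.P260.H811.Limit

/-!
Block E: a finitely generated residually-`q` group whose subgroups of finite index have bounded
`q`-rank has a subgroup of finite index with a linear representation over `ℚ_q` with central
kernel.
-/

namespace Vale.Agent.P260.H811

open Subgroup Filter
open scoped commutatorElement
set_option linter.unusedSectionVars false
set_option linter.style.haveILetI false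

variable {G : Type*} [Group G] {q : ℕ} [hq : Fact q.Prime] [Group.FG G] {W : Subgroup G}

/-- `⁅g, z ^ q⁆` is `⁅g, z⁆ ^ q` modulo `L (c + 2)`. -/
theorem comm_pow_step (hW : QN q W) (hG : Good q W) {c : ℕ} {g z : G} (hz : z ∈ W)
    (h : ⁅g, z⁆ ∈ L q W c) : (⁅g, z⁆ ^ q)⁻¹ * ⁅g, z ^ q⁆ ∈ L q W (c + 2) := by
  have hn : (L q W (c + 2)).Normal := L_normal hW.nor _
  have h1 : Commute ((⁅g, z⁆ : G) : G ⧸ L q W (c + 2)) (z : G ⧸ L q W (c + 2)) :=
    comm_mem_iff.1 (comm_L_two hW hG h hz)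
  have h2 : (⁅g, z⁆ * z) = g * z * g⁻¹ := by rw [commutatorElement_def, inv_mul_cancel_right]
  have h3 : ⁅g, z ^ q⁆ = (⁅g, z⁆ * z) ^ q * (z ^ q)⁻¹ := by
    rw [h2, conj_pow, commutatorElement_def]
  rw [← QuotientGroup.eq, h3, QuotientGroup.mk_mul, QuotientGroup.mk_pow, QuotientGroup.mk_pow,
    QuotientGroup.mk_mul, h1.mul_pow, QuotientGroup.mk_inv, QuotientGroup.mk_pow,
    mul_inv_cancel_right]

theorem climb (hW : QN q W) (hG : Good q W) {s : ℕ} (hs : ∀ i, s ≤ i →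
    (L q W (i + 1)).relIndex (L q W i) = (L q W (s + 1)).relIndex (L q W s)) {c : ℕ} (hc : s ≤ c)
    {g x : G} (hx : x ∈ W) (h1 : ⁅g, x⁆ ∈ L q W c) (h2 : ⁅g, x⁆ ∉ L q W (c + 1)) (k : ℕ) :
    ⁅g, x ^ q ^ k⁆ ∈ L q W (c + k) ∧ ⁅g, x ^ q ^ k⁆ ∉ L q W (c + k + 1) := by
  induction k with
  | zero => simpa using ⟨h1, h2⟩
  | succ k ih =>
    obtain ⟨ih1, ih2⟩ := ih
    have h3 := comm_pow_step hW hG (W.pow_mem hx (q ^ k)) ih1
    rw [← pow_mul, ← pow_succ] at h3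
    have h4 : ⁅g, x ^ q ^ k⁆ ^ q ∈ L q W (c + k + 1) := pow_mem_L ih1
    have h5 := L_succ_le (q := q) hW.nor (c + k + 1) h3
    refine ⟨?_, fun h6 => ih2 ?_⟩
    · have := (L q W (c + k + 1)).mul_mem h4 h5
      rwa [mul_inv_cancel_left] at this
    · refine pow_inj hW hG hs (by omega) ih1 ?_
      have h7 : ⁅g, x ^ q ^ (k + 1)⁆ ∈ L q W (c + k + 2) := h6
      have := (L q W (c + k + 2)).mul_mem h7 ((L q W (c + k + 2)).inv_mem h3)
      rwa [mul_inv_rev, inv_inv, mul_inv_cancel_left] at this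

/-- The representation over `ℤ_q`. -/
theorem exists_rep (hres : ResQ q G) (hW : QN q W) (hG : Good q W) :
    ∃ (s m : ℕ) (ρ : G →* Matrix (Fin m) (Fin m) ℤ_[q]),
      ∀ g ∈ L q W s, ρ g = 1 → ∀ x ∈ L q W s, g * x = x * g := by
  obtain ⟨s, hs1, hs⟩ := exists_stable (q := q) hW hG
  obtain ⟨m, hm⟩ := exists_rank (q := q) hW s
  have hs' : ∀ i, s ≤ i → (L q W (i + 1)).relIndex (L q W i) = q ^ m := fun i hi => by
    rw [hs i hi, hm]
  choose C hC using fun n : ℕ => exists_level (q := q) hW hG hs' (j := s + n) (by omega) (by omega)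
  obtain ⟨ρ, hρ⟩ := exists_limit (q := q) (fun n => s + n)
    (tendsto_atTop_mono (fun n => Nat.le_add_left n s) tendsto_id) C
  refine ⟨s, m, ρ, fun g hg h1 x hx => ?_⟩
  by_contra hne
  have hne' : ⁅g, x⁆ ≠ 1 := fun h => hne (commutatorElement_eq_one_iff_mul_comm.1 h)
  obtain ⟨U, hUn, hgU, hUi⟩ := hres _ hne'
  obtain ⟨c0, hc0⟩ := L_cofinal U.index U ⟨hUn, hUi⟩ rfl
  have hcs : ⁅g, x⁆ ∈ L q W s := by
    rw [commutatorElement_def]
    exact (L q W s).mul_mem ((L q W s).mul_mem ((L q W s).mul_mem hg hx) ((L q W s).inv_mem hg))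
      ((L q W s).inv_mem hx)
  -- the last `c` with `⁅g, x⁆ ∈ L c`
  have hex : ∃ c, ⁅g, x⁆ ∉ L q W c := ⟨c0, fun h => hgU (hc0 h)⟩
  classical
  have hmin := Nat.find_spec hex
  have hmin' := fun {i : ℕ} (h : i < Nat.find hex) => Nat.find_min hex h
  have hlt : s < Nat.find hex := by
    by_contra h
    exact hmin (L_anti hW.nor (by omega) hcs)
  obtain ⟨c, hc⟩ : ∃ c, Nat.find hex = c + 1 := ⟨Nat.find hex - 1, by omega⟩
  rw [hc] at hmin hlt
  have h2 : ⁅g, x⁆ ∈ L q W c := by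
    by_contra h
    exact hmin' (by omega) h
  obtain ⟨n, hn, D, hD⟩ := hρ g h1 (c + 1) (c + 1)
  have h3 := hC n g (c + 1) D (by omega) hD (x ^ q ^ n) (pow_pow_mem_L hx n)
  have h4 := (climb hW hG hs (by omega : s ≤ c) (L_le hW.nor s hx) h2 hmin n).2
  exact h4 (L_anti hW.nor (by omega) h3)

end Vale.Agent.P260.H811

namespace Vale.Agent.P260

open H811 in
/-- The statement of block E. -/
theorem blockE_lit (q : ℕ) [hq : Fact q.Prime] (G : Type) [Group G] (hfg : Group.FG G)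
    (hres : ResQ q G) (r : ℕ)
    (hr : ∀ H : Subgroup G, H.FiniteIndex → Nat.card (H →* Multiplicative (ZMod q)) ≤ q ^ r) :
    ∃ N : Subgroup G, N.FiniteIndex ∧ ∃ (m : ℕ) (ρ : N →* GL (Fin m) ℚ_[q]),
      ρ.ker ≤ Subgroup.center N := by
  obtain ⟨W, hW, hG⟩ := exists_good (q := q) (G := G) (r := r) fun N hN => hr N hN.finiteIndex
  obtain ⟨s, m, ρ, hρ⟩ := exists_rep (q := q) hres hW hG
  refine ⟨L q W s, (QN_L hW s).finiteIndex, m,
    (Matrix.GeneralLinearGroup.map (algebraMap ℤ_[q] ℚ_[q])).comp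
      (ρ.toHomUnits.comp (L q W s).subtype), ?_⟩
  intro g hg
  rw [MonoidHom.mem_ker] at hg
  have h1 : ρ g = 1 := by
    ext a b
    have h2 := congrArg (fun M : GL (Fin m) ℚ_[q] => (M : Matrix (Fin m) (Fin m) ℚ_[q]) a b) hg
    have h3 : algebraMap ℤ_[q] ℚ_[q] (ρ g a b) = (1 : Matrix (Fin m) (Fin m) ℚ_[q]) a b := h2
    have h4 : (1 : Matrix (Fin m) (Fin m) ℚ_[q]) a b =
        algebraMap ℤ_[q] ℚ_[q] ((1 : Matrix (Fin m) (Fin m) ℤ_[q]) a b) := by
      rw [Matrix.one_apply, Matrix.one_apply]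
      split_ifs <;> simp
    rw [h4] at h3
    exact FaithfulSMul.algebraMap_injective ℤ_[q] ℚ_[q] h3
  rw [Subgroup.mem_center_iff]
  intro x
  exact Subtype.ext (hρ g g.2 h1 x x.2).symm

end Vale.Agent.P260
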