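import Mathlib

/-!
Block E of the theorem of helper175 (P260): groups with bounded mod q rank.
Normal subgroups of q-power index.
-/

namespace Vale.Agent.P260.H811

open Subgroup
open scoped commutatorElement
set_option linter.unusedSectionVars false
set_option linter.style.haveILetI false

variable {G : Type*} [Group G]

/-- Normal subgroups of `q`-power index. -/
structure QN (q : ℕ) (U : Subgroup G) : Prop where
  nor : U.Normal
  idx : ∃ n, U.index = q ^ n

variable {q : ℕ} [hq : Fact q.Prime]

theorem QN.finiteIndex {U : Subgroup G} (h : QN q U) : U.FiniteIndex := by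
  obtain ⟨n, hn⟩ := h.idx
  exact ⟨by rw [hn]; exact pow_ne_zero _ hq.out.ne_zero⟩

theorem QN.isPGroup {U : Subgroup G} (h : QN q U) [U.Normal] : IsPGroup q (G ⧸ U) := by
  obtain ⟨n, hn⟩ := h.idx
  exact IsPGroup.of_card (n := n) (by rw [← hn]; rfl)

theorem QN.finite {U : Subgroup G} (h : QN q U) : Finite (G ⧸ U) := by
  have := h.finiteIndex
  infer_instance

theorem QN.of {U : Subgroup G} [U.Normal] [U.FiniteIndex] (h : IsPGroup q (G ⧸ U)) : QN q U := by
  refine ⟨inferInstance, ?_⟩
  obtain ⟨n, hn⟩ := IsPGroup.iff_card.mp h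
  exact ⟨n, hn⟩

theorem QN.of' {U : Subgroup G} (hU : U.Normal) (hi : U.FiniteIndex)
    (h : ∀ g : G, ∃ n, g ^ q ^ n ∈ U) : QN q U := by
  apply QN.of
  rw [isPGroup_iff_pow_pow_eq_one]
  intro g
  induction g using QuotientGroup.induction_on with
  | H g =>
    obtain ⟨n, hn⟩ := h g
    exact ⟨n, by rw [← QuotientGroup.mk_pow]; exact (QuotientGroup.eq_one_iff _).mpr hn⟩

theorem QN.pow_mem {U : Subgroup G} (h : QN q U) : ∃ n, ∀ g : G, g ^ q ^ n ∈ U := by
  obtain ⟨n, hn⟩ := h.idx
  have := h.nor
  refine ⟨n, fun g => ?_⟩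
  rw [← hn]
  exact Subgroup.pow_index_mem U g

theorem QN.top : QN q (⊤ : Subgroup G) := ⟨inferInstance, ⟨0, by simp⟩⟩

theorem QN.mono {U V : Subgroup G} (h : QN q U) (hV : V.Normal) (hUV : U ≤ V) : QN q V := by
  have := h.finiteIndex
  obtain ⟨n, hn⟩ := h.pow_mem
  exact QN.of' hV (Subgroup.finiteIndex_of_le hUV) fun g => ⟨n, hUV (hn g)⟩

theorem QN.inf {U V : Subgroup G} (h : QN q U) (h' : QN q V) : QN q (U ⊓ V) := by
  have := h.finiteIndex
  have := h'.finiteIndex
  have := h.nor
  have := h'.nor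
  obtain ⟨n, hn⟩ := h.pow_mem
  obtain ⟨m, hm⟩ := h'.pow_mem
  refine QN.of' inferInstance inferInstance fun g => ⟨n + m, ?_, ?_⟩
  · rw [pow_add, pow_mul]; exact U.pow_mem (hn g) _
  · rw [pow_add, mul_comm, pow_mul]; exact V.pow_mem (hm g) _

/-- If `K` is normal in `G`, `K ≤ N`, `N / K` abelian of exponent dividing `q^k`, then
`K` has `q`-power index when `G` is finitely generated. -/
theorem QN.down [Group.FG G] {N K : Subgroup G} (hN : QN q N) (hK : K.Normal) (hKN : K ≤ N)
    (hc : ∀ x ∈ N, ∀ y ∈ N, ⁅x, y⁆ ∈ K) {k : ℕ} (hp : ∀ x ∈ N, x ^ q ^ k ∈ K) : QN q K := by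
  have hNi := hN.finiteIndex
  have hfg : Group.FG N := Subgroup.fg_of_index_ne_zero N
  obtain ⟨n, hn⟩ := hN.pow_mem
  have hKN' : (K.subgroupOf N).Normal := inferInstance
  letI : CommGroup (N ⧸ K.subgroupOf N) :=
    { (inferInstance : Group (N ⧸ K.subgroupOf N)) with
      mul_comm := by
        intro a b
        induction a using QuotientGroup.induction_on with
        | H a =>
          induction b using QuotientGroup.induction_on with
          | H b =>
            rw [← QuotientGroup.mk_mul, ← QuotientGroup.mk_mul, eq_comm, QuotientGroup.eq]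
            rw [Subgroup.mem_subgroupOf]
            have := hc _ (N.inv_mem a.2) _ (N.inv_mem b.2)
            rw [commutatorElement_def] at this
            simpa [mul_assoc] using this }
  have htor : IsMulTorsion (N ⧸ K.subgroupOf N) := by
    intro a
    induction a using QuotientGroup.induction_on with
    | H a =>
      rw [isOfFinOrder_iff_pow_eq_one]
      refine ⟨q ^ k, pow_pos hq.out.pos _, ?_⟩
      rw [← QuotientGroup.mk_pow, QuotientGroup.eq_one_iff, Subgroup.mem_subgroupOf]
      simpa using hp a a.2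
  have hfin : Finite (N ⧸ K.subgroupOf N) := CommGroup.finite_of_fg_isMulTorsion _ htor
  have hrel : K.relIndex N ≠ 0 := by
    rw [Subgroup.relIndex, Subgroup.index_ne_zero_iff_finite]
    exact hfin
  refine QN.of' hK ⟨?_⟩ fun g => ⟨n + k, ?_⟩
  · rw [← Subgroup.relIndex_mul_index hKN]
    exact mul_ne_zero hrel hNi.index_ne_zero
  · rw [pow_add, pow_mul]
    exact hp _ (hn g)

end Vale.Agent.P260.H811
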